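import Vale.Agent.P216N.Cone
import Vale.Agent.P216DC.Defs
import Vale.Agent.P216SG.Defs

/-!
# Bounded curvature at bounded distance: statements
-/

open scoped Manifold ContDiff Topology
open Set

noncomputable section

namespace Vale.Agent.P216N

open Vale.Agent.P216R Vale.Agent.P216DC Vale.Agent.P216SG

section defs

variable {M : Type} [TopologicalSpace M] [ChartedSpace E3 M] [MeasurableSpace M]

/-- a metric neck of scale `σ` centred at `y` -/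
structure MN (v : ℝ) (g : Ten E3 M) (U : Set M) (y : M) (σ : ℝ) : Prop where
  lev : ∃ z : M → ℝ, ∀ a ∈ bl g U y (1000 * σ), ∀ b ∈ bl g U y (1000 * σ),
    |z a - z b| ≤ dd g U a b ∧ dd g U a b ≤ 2 * |z a - z b| + 5 * σ
  sc : ∀ a ∈ bl g U y (1000 * σ), 1 / 4 ≤ σ ^ 2 * Sc g a ∧ σ ^ 2 * Sc g a ≤ 4
  vol : ∀ s ∈ Ioc (0 : ℝ) 1, Vl v g U y (s * σ)
  fat : ∃ a : Fin 3 → M, (∀ i, a i ∈ bl g U y σ) ∧
    ∀ i j, i ≠ j → σ / 10 ≤ dd g U (a i) (a j) ∧ dd g U (a i) (a j) ≤ 3 * σ / 20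

/-- what is used of the canonical neighbourhood of `(y, t)`; `σ` is the curvature scale -/
structure CNb (v Λ c C η : ℝ) (g : ℝ → Ten E3 M) (U : Set M) (t : ℝ) (y : M) (σ : ℝ) : Prop where
  bd : ∀ z ∈ bl (g t) U y (Λ * σ), Sc (g t) z ≤ C / σ ^ 2
  nk : ∀ γ, MinGeo (g t) U γ (2 * (Λ * σ)) → γ (Λ * σ) = y → MN v (g t) U y σ ∧
    (∀ z ∈ bl (g t) U y (1000 * σ), SecGe (g t) z (-(η / σ ^ 2))) ∧
    ParB g U y t (c * σ) (c * σ ^ 2) (C / σ ^ 2) ∧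
    ∀ s ∈ Icc (t - c * σ ^ 2) t, ∀ z ∈ bl (g t) U y (c * σ), SecGe (g s) z (-(η / σ ^ 2))

end defs

/-- bounded curvature at bounded distance -/
def BCBD : Prop :=
  ∀ v > 0, ∀ Λ ≥ 1000, ∀ c > 0, ∀ C A : ℝ, ∃ K : ℝ, ∃ η > 0,
    ∀ (M : Type) [TopologicalSpace M] [ChartedSpace E3 M] [IsManifold 𝓘(ℝ, E3) ∞ M]
      [MeasurableSpace M] [BorelSpace M] (g : ℝ → Ten E3 M) (U : Set M) (t : ℝ) (x : M) (r : ℝ),
      0 < r → Met (g t) U → Hs U → Cpt (g t) U x (10 * (A * r)) → Sc (g t) x ≤ 1 / r ^ 2 →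
      (∀ y ∈ bl (g t) U x (A * r), ∀ σ > 0, σ ≤ r → σ ^ 2 * Sc (g t) y = 1 →
        CNb v Λ c C η g U t y σ) →
      ∀ y ∈ bl (g t) U x (A * r), Sc (g t) y ≤ K / r ^ 2

/-- necks are metric necks -/
def NECKM : Prop :=
  ∃ ε > 0, ∃ v > 0,
    ∀ (M : Type) [TopologicalSpace M] [ChartedSpace E3 M] [IsManifold 𝓘(ℝ, E3) ∞ M]
      [MeasurableSpace M] [BorelSpace M] (g : Ten E3 M) (U : Set M) (y : M) (h δ σ : ℝ),
      Met g U → Hs U → δ ≤ ε → Cen g U y h δ → 0 < σ → σ ^ 2 * Sc g y = 1 → MN v g U y σ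

/-- a piece of a Ricci flow with almost nonnegative curvature is not almost a metric cone -/
def CEX : Prop :=
  ∀ v > 0, ∀ c > 0, ∀ C B : ℝ, ∃ ε > 0, ∃ N : ℕ,
    ∀ (M : Type) [TopologicalSpace M] [ChartedSpace E3 M] [IsManifold 𝓘(ℝ, E3) ∞ M]
      [MeasurableSpace M] [BorelSpace M] (g : ℝ → Ten E3 M) (U : Set M) (t : ℝ) (y : M) (σ : ℝ)
      (ρ : M → ℝ), 0 < σ → Met (g t) U → Hs U → y ∈ U → Cpt (g t) U y (c * σ) →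
      σ ^ 2 * Sc (g t) y = 1 → ParB g U y t (c * σ) (c * σ ^ 2) (C / σ ^ 2) →
      (∀ s ∈ Icc (t - c * σ ^ 2) t, ∀ z ∈ bl (g t) U y (c * σ), SecGe (g s) z (-(ε / σ ^ 2))) →
      Vl v (g t) U y (c / 2 * σ) → (∀ a ∈ bl (g t) U y (c * σ), |ρ a| ≤ B * σ) →
      (∀ a ∈ bl (g t) U y (c * σ), ∀ b ∈ bl (g t) U y (c * σ), |ρ a - ρ b| ≤ dd (g t) U a b) →
      ¬∀ n ≤ N, ∀ a ∈ bl (g t) U y (c * σ), ∀ b ∈ bl (g t) U y (c * σ),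
        ∀ m ∈ bl (g t) U y (c * σ), MidIneq (ρ a) (ρ b) (ρ m) (dd (g t) U a m) (dd (g t) U b m)
          (dd (g t) U a b) (1 - 1 / ((n : ℝ) + 2)) (ε * σ ^ 2) (ε * σ)

/-- approximate contractions towards `p` on the set `P` of radius `D` -/
structure ACo {X : Type} [PseudoMetricSpace X] (P : Set X) (p : X) (H : ℝ → X → X) (lg : X → E3)
    (D η : ℝ) : Prop where
  mem : p ∈ P
  bd : ∀ a ∈ P, dist p a ≤ D
  map : ∀ t ∈ Icc (0 : ℝ) 1, MapsTo (H t) P P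
  rad : ∀ t ∈ Icc (0 : ℝ) 1, ∀ a ∈ P, dist p (H t a) = t * dist p a
  cc : ∀ t ∈ Icc (0 : ℝ) 1, ∀ q ∈ P, ∀ b ∈ P, ip p q (H t b) ≤ t * ip p q b + η * D ^ 2
  nrm : ∀ a ∈ P, ‖lg a‖ = dist p a
  hin : ∀ a ∈ P, ∀ b ∈ P, dist a b ^ 2 ≤ ‖lg a - lg b‖ ^ 2 + η * D ^ 2

/-- approximate contractions produce a scale where the space is almost a cone -/
def ULIM : Prop :=
  ∀ ε > 0, ∀ N : ℕ, ∀ l₁ > 0, ∃ l₂ > 0, ∃ η > 0,
    ∀ (X : Type) [PseudoMetricSpace X] (P : Set X) (p : X) (H : ℝ → X → X) (lg : X → E3) (D : ℝ),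
      0 < D → ACo P p H lg D η → ∃ l ∈ Icc (l₂ * D) (l₁ * D), ∀ n ≤ N, ∀ a ∈ P, ∀ b ∈ P, ∀ m ∈ P,
        dist p a ≤ 2 * l → dist p b ≤ 2 * l → dist p m ≤ 2 * l →
        MidIneq (dist p a) (dist p b) (dist p m) (dist a m) (dist b m) (dist a b)
          (1 - 1 / ((n : ℝ) + 2)) (ε * l ^ 2) (ε * l)

end Vale.Agent.P216N
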