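import Vale.Agent.P216N.BAsm
import Vale.Agent.P216UL.Ulim
import Vale.Agent.P216U.Cex
import Vale.Agent.P216MP.Rig

/-!
# Bounded curvature at bounded distance, unconditionally
-/

open Set

namespace Vale.Agent.P216N

open Vale.Agent.P216R

theorem s4 : P216K.S4 := fun _ _ _ _ _ _ _ _ hτ hg _ hs hu h _ hx =>
  P216MP.s4 (hg.mono_time Ioc_subset_Icc_self) (fun t ht => hs t (Ioc_subset_Icc_self ht))
    (neg_lt_zero.2 hτ) hu h hx

theorem cex : CEX := P216U.cex_of s4

theorem bcbd : BCBD := bcbd_of P216UL.ulim cex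

end Vale.Agent.P216N
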