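import Mathlib.Topology.MetricSpace.Pseudo.Defs
import Mathlib.Topology.MetricSpace.Lipschitz
import Mathlib.Topology.Order.IntermediateValue
import Mathlib.Analysis.Normed.Order.Lattice
import Mathlib.Tactic

/-!
# A chain of metric necks along a segment is a tube
-/

open Set

namespace Vale.Agent.P216N

/-- a coarsely isometric function takes all values near its value at zero -/
theorem cross {f : ℝ → ℝ} {σ w : ℝ} (hσ : 0 < σ) (h0 : f 0 = 0)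
    (h : ∀ a ∈ Icc (-(30 * σ)) (30 * σ), ∀ b ∈ Icc (-(30 * σ)) (30 * σ),
      |f a - f b| ≤ |a - b| ∧ |a - b| ≤ 2 * |f a - f b| + 5 * σ) (hw : |w| ≤ 11 * σ) :
    ∃ τ ∈ Icc (-(30 * σ)) (30 * σ), f τ = w := by
  have hc : ContinuousOn f (Icc (-(30 * σ)) (30 * σ)) :=
    (LipschitzOnWith.of_dist_le_mul (K := 1) fun a ha b hb => by
      simpa [Real.dist_eq] using (h a ha b hb).1).continuousOn
  have m0 : (0 : ℝ) ∈ Icc (-(30 * σ)) (30 * σ) := ⟨by linarith, by linarith⟩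
  have m1 : -(30 * σ) ∈ Icc (-(30 * σ)) (30 * σ) := ⟨le_rfl, by linarith⟩
  have m2 : 30 * σ ∈ Icc (-(30 * σ)) (30 * σ) := ⟨by linarith, le_rfl⟩
  have iv : ∀ a ∈ Icc (-(30 * σ)) (30 * σ), ∀ b ∈ Icc (-(30 * σ)) (30 * σ), ∀ y, f a ≤ y →
      y ≤ f b → ∃ τ ∈ uIcc a b, f τ = y := fun a ha b hb y h1 h2 =>
    intermediate_value_uIcc (hc.mono (uIcc_subset_Icc ha hb)) (mem_uIcc_of_le h1 h2)
  have key : ∀ y, |y| = 3 * σ → ∀ a ∈ Icc (-(30 * σ)) 0, ∀ b ∈ Icc 0 (30 * σ), f a = y →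
      f b ≠ y := fun y hy a ha b hb e1 e2 => by
    have ma : a ∈ Icc (-(30 * σ)) (30 * σ) := ⟨ha.1, by linarith [ha.2]⟩
    have mb : b ∈ Icc (-(30 * σ)) (30 * σ) := ⟨by linarith [hb.1], hb.2⟩
    have h1 := (h a ma 0 m0).1
    have h2 := (h b mb 0 m0).1
    have h3 := (h b mb a ma).2
    rw [h0, sub_zero, sub_zero] at h1 h2
    rw [e1, hy, abs_of_nonpos ha.2] at h1
    rw [e2, hy, abs_of_nonneg hb.1] at h2
    rw [e1, e2, sub_self, abs_zero, abs_of_nonneg (by linarith [ha.2, hb.1])] at h3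
    linarith
  have e1 := (h _ m1 0 m0).2
  have e2 := (h _ m2 0 m0).2
  rw [h0, sub_zero, sub_zero] at e1 e2
  rw [abs_of_nonpos (by linarith)] at e1
  rw [abs_of_nonneg (by linarith)] at e2
  have u1 : uIcc (-(30 * σ)) 0 = Icc (-(30 * σ)) 0 := uIcc_of_le (by linarith)
  have u2 : uIcc 0 (30 * σ) = Icc 0 (30 * σ) := uIcc_of_le (by linarith)
  obtain ⟨w1, w2⟩ := abs_le.1 hw
  rcases abs_cases (f (-(30 * σ))) with ⟨k1, -⟩ | ⟨k1, -⟩ <;>
    rcases abs_cases (f (30 * σ)) with ⟨k2, -⟩ | ⟨k2, -⟩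
  · obtain ⟨a, ha, ea⟩ := iv 0 m0 _ m1 (3 * σ) (by linarith) (by linarith)
    obtain ⟨b, hb, eb⟩ := iv 0 m0 _ m2 (3 * σ) (by linarith) (by linarith)
    exact absurd eb (key _ (abs_of_pos (by linarith)) a (by rwa [uIcc_comm, u1] at ha) b
      (u2 ▸ hb) ea)
  · obtain ⟨a, ha, ea⟩ := iv _ m2 _ m1 w (by linarith) (by linarith)
    exact ⟨a, uIcc_subset_Icc m2 m1 ha, ea⟩
  · obtain ⟨a, ha, ea⟩ := iv _ m1 _ m2 w (by linarith) (by linarith)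
    exact ⟨a, uIcc_subset_Icc m1 m2 ha, ea⟩
  · obtain ⟨a, ha, ea⟩ := iv _ m1 0 m0 (-(3 * σ)) (by linarith) (by linarith)
    obtain ⟨b, hb, eb⟩ := iv _ m2 0 m0 (-(3 * σ)) (by linarith) (by linarith)
    exact absurd eb (key _ (by rw [abs_neg]; exact abs_of_pos (by linarith)) a (u1 ▸ ha) b
      (by rwa [uIcc_comm, u2] at hb) ea)

variable {X : Type*} [PseudoMetricSpace X]

/-- `β` is a segment of length `L` -/
def Sg (β : ℝ → X) (L : ℝ) : Prop := ∀ s ∈ Icc 0 L, ∀ t ∈ Icc 0 L, dist (β s) (β t) = |s - t|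

theorem Sg.rev {β : ℝ → X} {L : ℝ} (h : Sg β L) : Sg (fun s => β (L - s)) L := fun s hs t ht => by
  rw [h _ ⟨by linarith [hs.2], by linarith [hs.1]⟩ _ ⟨by linarith [ht.2], by linarith [ht.1]⟩,
    abs_sub_comm]
  congr 1; ring

theorem Sg.dist_zero {β : ℝ → X} {L s : ℝ} (h : Sg β L) (hs : s ∈ Icc 0 L) :
    dist (β 0) (β s) = s := by
  rw [h 0 ⟨le_rfl, hs.1.trans hs.2⟩ s hs, zero_sub, abs_neg, abs_of_nonneg hs.1]

/-- a chain of necks of scales `σ u` along the segment `c` -/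
structure Tu (c : ℝ → X) (σ : ℝ → ℝ) (l s₀ s₁ : ℝ) : Prop where
  pos : 0 < s₀
  le : s₀ ≤ s₁
  len : 1000 * s₁ ≤ l
  lo : ∀ u ∈ Icc 0 l, s₀ ≤ σ u
  hi : ∀ u ∈ Icc 0 l, σ u ≤ s₁
  zero : σ 0 = s₀
  seg : Sg c l
  near : ∀ u ∈ Icc 0 l, ∀ q, dist (c u) q ≤ 11 * σ u →
    ∃ v, |v - u| ≤ 16 * σ u ∧ dist (c v) q ≤ 5 * σ u
  cmp : ∀ u ∈ Icc 0 l, ∀ v ∈ Icc 0 l, |v - u| ≤ 999 * σ u → σ u ≤ 2 * σ v ∧ σ v ≤ 2 * σ u

/-- the tube -/
def Wt (c : ℝ → X) (σ : ℝ → ℝ) (l : ℝ) : Set X := {q | ∃ u ∈ Icc 0 l, dist (c u) q ≤ 10 * σ u}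

/-- the tube away from the far end, with a ball about the near end -/
def Pt (c : ℝ → X) (σ : ℝ → ℝ) (l a b : ℝ) : Set X :=
  {q | dist (c 0) q ≤ l - a ∧ (q ∈ Wt c σ l ∨ dist (c 0) q ≤ b)}

namespace Tu

variable {c β : ℝ → X} {σ : ℝ → ℝ} {l s₀ s₁ L s : ℝ} {q q' a b : X}

theorem m0 (h : Tu c σ l s₀ s₁) : (0 : ℝ) ∈ Icc 0 l := ⟨le_rfl, by linarith [h.pos, h.le, h.len]⟩

theorem abs_le_of (h : Tu c σ l s₀ s₁) {u : ℝ} (hu : u ∈ Icc 0 l) (q : X) :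
    |dist (c 0) q - u| ≤ dist (c u) q := by
  have := abs_dist_sub_le (c 0) (c u) q
  have h1 := dist_triangle (c 0) (c u) q
  have h2 := dist_triangle_right (c 0) (c u) q
  rw [h.seg.dist_zero hu] at h1 h2
  exact abs_le.2 ⟨by linarith, by linarith⟩

theorem step (h : Tu c σ l s₀ s₁) (hq : q ∈ Wt c σ l) (hd : dist q q' ≤ s₀) :
    q' ∈ Wt c σ l ∨ dist (c 0) q ≤ 52 * s₀ ∨ l - 26 * s₁ ≤ dist (c 0) q := by
  obtain ⟨u, hu, hq⟩ := hq
  have h1 := h.lo u hu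
  have h2 := h.hi u hu
  have h3 := h.pos
  obtain ⟨v, hv, hv'⟩ := h.near u hu q' (by linarith [dist_triangle (c u) q q'])
  obtain ⟨k1, k2⟩ := abs_le.1 (h.abs_le_of hu q)
  obtain ⟨k3, k4⟩ := abs_le.1 hv
  by_cases v0 : v < 0
  · have := (h.cmp u hu 0 h.m0 (by rw [zero_sub, abs_neg, abs_of_nonneg hu.1]; linarith)).1
    rw [h.zero] at this
    exact Or.inr (Or.inl (by linarith))
  by_cases v1 : l < v
  · exact Or.inr (Or.inr (by linarith))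
  have mv : v ∈ Icc 0 l := ⟨not_lt.1 v0, not_lt.1 v1⟩
  exact Or.inl ⟨v, mv, by linarith [(h.cmp u hu v mv (by linarith)).1]⟩

theorem stay (h : Tu c σ l s₀ s₁) (hβ : Sg β L) {n : ℝ} (hn : 52 * s₀ ≤ n)
    (h0 : β 0 ∈ Wt c σ l ∨ dist (c 0) (β 0) ≤ n)
    (hf : ∀ s ∈ Icc 0 L, dist (c 0) (β s) < l - 26 * s₁) (hs : s ∈ Icc 0 L) :
    β s ∈ Wt c σ l ∨ ∃ s' ∈ Icc 0 s, dist (c 0) (β s') ≤ n := by
  have key : ∀ k : ℕ, ∀ s ∈ Icc 0 L, s ≤ k * s₀ →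
      β s ∈ Wt c σ l ∨ ∃ s' ∈ Icc 0 s, dist (c 0) (β s') ≤ n := by
    intro k
    induction k with
    | zero =>
      intro s hs hk
      obtain rfl : s = 0 := le_antisymm (by simpa using hk) hs.1
      exact h0.imp_right fun h0 => ⟨0, ⟨le_rfl, le_rfl⟩, h0⟩
    | succ k ih =>
      intro s hs hk
      have hp := h.pos
      have m1 : max (s - s₀) 0 ≤ s := max_le (by linarith) hs.1
      have m2 : max (s - s₀) 0 ∈ Icc 0 L := ⟨le_max_right _ _, m1.trans hs.2⟩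
      rcases ih _ m2 (max_le (by push_cast at hk; linarith) (by positivity)) with h1 | ⟨s', h1, h2⟩
      · rcases h.step (q' := β s) h1 (by
          rw [hβ _ m2 _ hs, abs_of_nonpos (by linarith)]
          linarith [le_max_left (s - s₀) 0]) with h2 | h2 | h2
        · exact Or.inl h2
        · exact Or.inr ⟨_, ⟨m2.1, m1⟩, h2.trans hn⟩
        · exact absurd (hf _ m2) h2.not_gt
      · exact Or.inr ⟨s', ⟨h1.1, h1.2.trans m1⟩, h2⟩
  obtain ⟨k, hk⟩ := exists_nat_ge (s / s₀)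
  exact key k s hs ((div_le_iff₀ h.pos).1 hk)

/-- points of the tube are close to their projection to the segment -/
theorem prj (h : Tu c σ l s₀ s₁) (hq : q ∈ Wt c σ l) (hl : dist (c 0) q ≤ l) :
    dist (c (dist (c 0) q)) q ≤ 20 * s₁ ∧ dist (c (dist (c 0) q)) q ≤ 40 * σ (dist (c 0) q) := by
  obtain ⟨u, hu, hq⟩ := hq
  have m : dist (c 0) q ∈ Icc 0 l := ⟨dist_nonneg, hl⟩
  have h1 := (h.abs_le_of hu q).trans hq
  have h2 := dist_triangle (c (dist (c 0) q)) (c u) q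
  rw [h.seg _ m _ hu] at h2
  have h3 := h.lo u hu
  have h4 := h.pos
  exact ⟨by linarith [h.hi u hu], by linarith [(h.cmp u hu _ m (by linarith)).1]⟩

theorem prj' (h : Tu c σ l s₀ s₁) (hq : q ∈ Pt c σ l (199 * s₁) (61 * s₀)) :
    dist (c (dist (c 0) q)) q ≤ 122 * s₁ := by
  have h1 := h.pos
  have h2 := h.le
  have hl : dist (c 0) q ≤ l := by linarith [hq.1]
  rcases hq.2 with h3 | h3
  · linarith [(h.prj h3 hl).1]
  · have := dist_triangle_left (c (dist (c 0) q)) q (c 0)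
    rw [h.seg.dist_zero ⟨dist_nonneg, hl⟩] at this
    linarith

theorem far (h : Tu c σ l s₀ s₁) (hβ : Sg β L) (hL : 0 ≤ L)
    (ha : β 0 ∈ Pt c σ l (199 * s₁) (61 * s₀)) (hb : β L ∈ Pt c σ l (199 * s₁) (61 * s₀)) :
    ∀ s ∈ Icc 0 L, dist (c 0) (β s) < l - 26 * s₁ := fun s hs => by
  have h1 := h.pos
  have h2 := h.le
  have m1 : dist (c 0) (β 0) ∈ Icc 0 l := ⟨dist_nonneg, by linarith [ha.1]⟩
  have m2 : dist (c 0) (β L) ∈ Icc 0 l := ⟨dist_nonneg, by linarith [hb.1]⟩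
  have e1 := dist_triangle4_left (c (dist (c 0) (β 0))) (c (dist (c 0) (β L))) (β 0) (β L)
  rw [hβ.dist_zero ⟨hL, le_rfl⟩, h.seg _ m1 _ m2] at e1
  have e2 := dist_triangle (c 0) (β 0) (β s)
  have e3 := dist_triangle (c 0) (β L) (β s)
  rw [hβ.dist_zero hs] at e2
  rw [hβ L ⟨hL, le_rfl⟩ s hs, abs_of_nonneg (sub_nonneg.2 hs.2)] at e3
  have e4 := h.prj' ha
  have e5 := h.prj' hb
  rcases abs_cases (dist (c 0) (β 0) - dist (c 0) (β L)) with ⟨k, -⟩ | ⟨k, -⟩ <;>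
    linarith [ha.1, hb.1]

/-- segments between points of the tube stay in the necks -/
theorem seg_mem (h : Tu c σ l s₀ s₁) (hβ : Sg β L)
    (ha : β 0 ∈ Pt c σ l (199 * s₁) (61 * s₀)) (hb : β L ∈ Pt c σ l (199 * s₁) (61 * s₀))
    (hs : s ∈ Icc 0 L) : ∃ u ∈ Icc 0 l, dist (c u) (β s) < 1000 * σ u := by
  have hL := hs.1.trans hs.2
  have hp := h.pos
  have hf := h.far hβ hL ha hb
  have hW : β s ∈ Wt c σ l → ∃ u ∈ Icc 0 l, dist (c u) (β s) < 1000 * σ u := fun ⟨u, hu, k⟩ =>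
    ⟨u, hu, by linarith [h.lo u hu]⟩
  rcases h.stay hβ (by linarith) ha.2 hf hs with h1 | ⟨a, ma, h1⟩
  · exact hW h1
  rcases h.stay (s := L - s) hβ.rev (n := 61 * s₀) (by linarith) (by simpa using hb.2)
    (fun u hu => hf _ ⟨by linarith [hu.2], by linarith [hu.1]⟩)
    ⟨by linarith [hs.2], by linarith [hs.1]⟩ with h2 | ⟨b, mb, h2⟩
  · exact hW (by simpa using h2)
  have ma' : a ∈ Icc 0 L := ⟨ma.1, ma.2.trans hs.2⟩
  have e1 := dist_triangle_left (β a) (β (L - b)) (c 0)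
  have e2 := dist_triangle (c 0) (β a) (β s)
  rw [hβ a ma' _ ⟨by linarith [mb.2, hs.1], by linarith [mb.1]⟩,
    abs_of_nonpos (by linarith [ma.2, mb.2])] at e1
  rw [hβ a ma' s hs, abs_of_nonpos (by linarith [ma.2])] at e2
  exact ⟨0, h.m0, by rw [h.zero]; linarith [mb.2]⟩

theorem weak (h : Tu c σ l s₀ s₁) (hq : q ∈ Pt c σ l (200 * s₁) (60 * s₀)) (hd : dist q q' ≤ s₀) :
    q' ∈ Pt c σ l (199 * s₁) (61 * s₀) := by
  have h1 := h.pos
  have h2 := h.le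
  have h3 := dist_triangle (c 0) q q'
  refine ⟨by linarith [hq.1], hq.2.elim (fun k => ?_) fun k => Or.inr (by linarith)⟩
  rcases h.step k hd with k | k | k
  exacts [Or.inl k, Or.inr (by linarith), absurd hq.1 (not_le.2 (by linarith))]

theorem zero_mem (h : Tu c σ l s₀ s₁) : c 0 ∈ Pt c σ l (200 * s₁) (60 * s₀) := by
  have h1 := h.pos
  refine ⟨?_, Or.inr ?_⟩ <;> rw [dist_self] <;> linarith [h.le, h.len]

/-- segments from the end point stay in the tube -/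
theorem rad_mem (h : Tu c σ l s₀ s₁) (hβ : Sg β L) (ha : β 0 = c 0)
    (hb : β L ∈ Pt c σ l (200 * s₁) (60 * s₀)) (hs : s ∈ Icc 0 L) :
    β s ∈ Pt c σ l (200 * s₁) (60 * s₀) := by
  have hL := hs.1.trans hs.2
  have hp := h.pos
  have h1 := h.le
  have e : ∀ u ∈ Icc 0 L, dist (c 0) (β u) = u := fun u hu => by rw [← ha, hβ.dist_zero hu]
  have e1 := hb.1
  rw [e L ⟨hL, le_rfl⟩] at e1
  refine ⟨by rw [e s hs]; linarith [hs.2], ?_⟩
  rcases h.stay (s := L - s) hβ.rev (n := 60 * s₀) (by linarith) (by simpa using hb.2)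
    (fun u hu => by rw [e _ ⟨by linarith [hu.2], by linarith [hu.1]⟩]; linarith [hu.1])
    ⟨by linarith [hs.2], by linarith [hs.1]⟩ with h2 | ⟨b, mb, h2⟩
  · exact Or.inl (by simpa using h2)
  · rw [e _ ⟨by linarith [mb.2, hs.1], by linarith [mb.1]⟩] at h2
    exact Or.inr (by rw [e s hs]; linarith [mb.2])

theorem ball_mem (h : Tu c σ l s₀ s₁) {u : ℝ} (h0 : 0 ≤ u) (hu : u ≤ l - 201 * s₁)
    (hq : dist (c u) q ≤ σ u) : q ∈ Pt c σ l (200 * s₁) (60 * s₀) := by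
  have h1 := h.pos
  have h2 := h.le
  have mu : u ∈ Icc 0 l := ⟨h0, by linarith⟩
  have h3 := (abs_le.1 (h.abs_le_of mu q)).2
  exact ⟨by linarith [h.hi u mu], Or.inl ⟨u, mu, by linarith [h.lo u mu]⟩⟩

/-- one of three points in general position is away from the segment -/
theorem fat (h : Tu c σ l s₀ s₁) {a : Fin 3 → X} {ρ : ℝ} (hl : ∀ i, dist (c 0) (a i) ≤ l)
    (ha : ∀ i j, i ≠ j → ρ / 10 ≤ dist (a i) (a j) ∧ dist (a i) (a j) ≤ 3 * ρ / 20) :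
    ∃ i, ρ / 200 ≤ dist (c (dist (c 0) (a i))) (a i) := by
  by_contra! k
  have e : ∀ i j, i ≠ j → 9 * ρ / 100 < |dist (c 0) (a i) - dist (c 0) (a j)| ∧
      |dist (c 0) (a i) - dist (c 0) (a j)| < 16 * ρ / 100 := fun i j hij => by
    have e1 := dist_triangle4_left (c (dist (c 0) (a i))) (c (dist (c 0) (a j))) (a i) (a j)
    have e2 := dist_triangle4_right (c (dist (c 0) (a i))) (c (dist (c 0) (a j))) (a i) (a j)
    rw [h.seg _ ⟨dist_nonneg, hl i⟩ _ ⟨dist_nonneg, hl j⟩] at e1 e2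
    exact ⟨by linarith [k i, k j, (ha i j hij).1], by linarith [k i, k j, (ha i j hij).2]⟩
  obtain ⟨a1, a2⟩ := e 0 1 (by decide)
  obtain ⟨b1, b2⟩ := e 1 2 (by decide)
  obtain ⟨c1, c2⟩ := e 0 2 (by decide)
  rcases abs_cases (dist (c 0) (a 0) - dist (c 0) (a 1)) with ⟨k1, -⟩ | ⟨k1, -⟩ <;>
    rcases abs_cases (dist (c 0) (a 1) - dist (c 0) (a 2)) with ⟨k2, -⟩ | ⟨k2, -⟩ <;>
    rcases abs_cases (dist (c 0) (a 0) - dist (c 0) (a 2)) with ⟨k3, -⟩ | ⟨k3, -⟩ <;> linarith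

end Tu

end Vale.Agent.P216N
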