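import Vale.Agent.P216N.BDefs
import Vale.Agent.P216N.Tube
import Vale.Agent.P216TP.Top
import Vale.Agent.P216CP.HR
import Vale.Agent.P216L.Cmp
import Vale.Agent.P216BF.Curv

/-!
# Contractions towards the end of a tube with almost nonnegative curvature
-/

open scoped Manifold ContDiff Topology
open Set

set_option maxSynthPendingDepth 3

noncomputable section

namespace Vale.Agent.P216N

open Vale.Agent.P216R Vale.Agent.P216CP Vale.Agent.P216BF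

variable {M : Type} [TopologicalSpace M] [ChartedSpace E3 M] {g : Ten E3 M} {U : Set M} {x : M}

/-- the component of `x` -/
structure Cp (g : Ten E3 M) (U : Set M) (x : M) : Type where
  val : M
  fin : ed g U x val ≠ ⊤

theorem Cp.ne (a b : Cp g U x) : ed g U a.1 b.1 ≠ ⊤ :=
  ed_ne_top_trans (ed_comm.trans_ne a.2) b.2

instance : PseudoMetricSpace (Cp g U x) where
  dist a b := dd g U a.1 b.1
  dist_self _ := dd_self
  dist_comm _ _ := dd_comm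
  dist_triangle a b c := dd_triangle (a.ne b) (b.ne c)

theorem Cp.dist_eq (a b : Cp g U x) : dist a b = dd g U a.1 b.1 := rfl

theorem Cp.mem (a : Cp g U x) : a.1 ∈ U := (mem_of_ed_ne a.2).2

theorem Cp.mem_bl {a b : Cp g U x} {r : ℝ} : b.1 ∈ bl g U a.1 r ↔ dist a b < r :=
  mem_bl_iff.trans (and_iff_right (a.ne b))

open Classical in
/-- a point of the manifold as a point of the component -/
def lf (o : Cp g U x) (a : M) : Cp g U x := if h : ed g U x a = ⊤ then o else ⟨a, h⟩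

theorem lf_val (o : Cp g U x) {a : M} (h : ed g U x a ≠ ⊤) : (lf o a).1 = a := by
  rw [lf, dif_neg h]

theorem lf_of (o b : Cp g U x) {a : M} (h : ed g U b.1 a ≠ ⊤) : (lf o a).1 = a :=
  lf_val o (ed_ne_top_trans b.2 h)

theorem lf_self (o a : Cp g U x) : lf o a.1 = a := by rw [lf, dif_neg a.2]

variable {γ β : ℝ → M} {L : ℝ}

theorem lf_geo (o a : Cp g U x) (h : MinGeo g U γ L) (h0 : γ 0 = a.1) {s : ℝ} (hs : s ∈ Icc 0 L) :
    (lf o (γ s)).1 = γ s := lf_of o a (by rw [← h0, minGeo_ed' h hs]; exact ENNReal.ofReal_ne_top)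

theorem sg_lf (o a : Cp g U x) (h : MinGeo g U γ L) (h0 : γ 0 = a.1) :
    Sg (fun s => lf o (γ s)) L := fun s hs t ht => by
  rw [Cp.dist_eq, lf_geo o a h h0 hs, lf_geo o a h h0 ht, minGeo_dd h hs ht]

/-- a tube with sectional curvature at least `-k²` -/
structure Gs (c : ℝ → Cp g U x) (σ : ℝ → ℝ) (l s₀ s₁ k : ℝ) : Prop where
  met : Met g U
  hs : Hs U
  tu : Tu c σ l s₀ s₁
  geo : ∀ a b : Cp g U x, dist (c 0) a ≤ l → dist (c 0) b ≤ l →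
    ∃ γ, MinGeo g U γ (dist a b) ∧ γ 0 = a.1 ∧ γ (dist a b) = b.1
  k0 : 0 ≤ k
  sec : ∀ u ∈ Icc 0 l, ∀ z, dist (c u) z < 1000 * σ u → SecGe g z.1 (-k ^ 2)

namespace Gs

variable {c : ℝ → Cp g U x} {σ : ℝ → ℝ} {l s₀ s₁ k : ℝ} {a b q : Cp g U x}

theorem sec_geo (h : Gs c σ l s₀ s₁ k) (hγ : MinGeo g U γ L) (e0 : γ 0 = a.1) (e1 : γ L = b.1)
    (ha : a ∈ Pt c σ l (199 * s₁) (61 * s₀)) (hb : b ∈ Pt c σ l (199 * s₁) (61 * s₀)) :
    ∀ u ∈ Icc 0 L, SecGe g (γ u) (-k ^ 2) := fun u hu => by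
  obtain ⟨v, hv, k1⟩ := h.tu.seg_mem (sg_lf a a hγ e0) (by rwa [e0, lf_self])
    (by rwa [e1, lf_self]) hu
  exact lf_geo a a hγ e0 hu ▸ h.sec v hv _ k1

theorem weak (h : Gs c σ l s₀ s₁ k) (ha : a ∈ Pt c σ l (200 * s₁) (60 * s₀)) :
    a ∈ Pt c σ l (199 * s₁) (61 * s₀) := h.tu.weak ha (by rw [dist_self]; exact h.tu.pos.le)

theorem le_l (h : Gs c σ l s₀ s₁ k) (ha : a ∈ Pt c σ l (199 * s₁) (61 * s₀)) :
    dist (c 0) a ≤ l := by linarith [ha.1, h.tu.pos, h.tu.le]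

variable [IsManifold 𝓘(ℝ, E3) ∞ M]

theorem top (h : Gs c σ l s₀ s₁ k) (hβ : MinGeo g U β L) (e0 : β 0 = (c 0).1) (e1 : β L = b.1)
    (hb : b ∈ Pt c σ l (200 * s₁) (60 * s₀)) (hq : q ∈ Pt c σ l (200 * s₁) (60 * s₀)) :
    ConcaveOn ℝ (Icc 0 L) (fun t => dd g U q.1 (β t) ^ 2 - (1 + (k * (2 * l)) ^ 2) * t ^ 2) ∧
    ∀ γ A, MinGeo g U γ A → γ 0 = (c 0).1 → γ A = q.1 → dist q b ^ 2 ≤ A ^ 2 +
      (1 + (k * (2 * l)) ^ 2) * L ^ 2 - 2 * A * L * g (c 0).1 (vel E3 γ 0) (vel E3 β 0) := by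
  obtain ⟨ε, hε, hg⟩ := minGeo_isGeo hβ
  have hp := h.tu.pos
  have hL := hβ.nonneg
  set δ := min ε s₀ with hδ
  have d0 : 0 < δ := lt_min hε hp
  have d1 : δ ≤ ε := min_le_left _ _
  have d2 : δ ≤ s₀ := min_le_right _ _
  have hg' : IsGeo g U β (Ioo (-δ) (L + δ)) := hg.mono (Ioo_subset_Ioo (by linarith) (by linarith))
  have hI : Icc 0 L ⊆ Ioo (-δ) (L + δ) := fun t ht => ⟨by linarith [ht.1], by linarith [ht.2]⟩
  have m0 := hI ⟨le_rfl, hL⟩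
  have hu : ∀ t ∈ Ioo (-δ) (L + δ), spd g β t = 1 := fun t ht => by
    rw [hg'.spd_eq isOpen_Ioo ht, hg'.sp_const h.met isOpen_Ioo isPreconnected_Ioo ht m0,
      ← hg'.spd_eq isOpen_Ioo m0, hβ.unit 0 ⟨le_rfl, hL⟩]
  have hR : P216TP.Reg g U q.1 k (2 * l) β (Ioo (-δ) (L + δ)) := fun t ht => by
    have mt : max 0 (min t L) ∈ Icc 0 L := ⟨le_max_left _ _, max_le hL (min_le_right _ _)⟩
    have e2 := P216TP.ed_geo_le hg' isOpen_Ioo ordConnected_Ioo hu (hI mt) ht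
    have e3 := lf_geo b (c 0) hβ e0 mt
    have e4 : (lf b (β t)).1 = β t := lf_of b (lf b (β (max 0 (min t L))))
      (e3.symm ▸ ne_top_of_le_ne_top ENNReal.ofReal_ne_top e2)
    have e5 : lf b (β t) ∈ Pt c σ l (199 * s₁) (61 * s₀) := by
      refine h.tu.weak (h.tu.rad_mem (sg_lf b (c 0) hβ e0) (by rw [e0, lf_self])
        (by rwa [e1, lf_self]) mt) ?_
      rw [Cp.dist_eq, e3, e4]
      refine ENNReal.toReal_le_of_le_ofReal hp.le (e2.trans (ENNReal.ofReal_le_ofReal ?_))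
      rcases le_total t L with k1 | k1
      · rw [min_eq_left k1]
        rcases le_total 0 t with k2 | k2
        · rw [max_eq_right k2, sub_self, abs_zero]; exact hp.le
        · rw [max_eq_left k2, abs_of_nonneg (by linarith)]; linarith [ht.1]
      · rw [min_eq_right k1, max_eq_right hL, abs_of_nonpos (by linarith)]; linarith [ht.2]
    obtain ⟨γ, hγ, f0, f1⟩ := h.geo q _ (h.le_l (h.weak hq)) (h.le_l e5)
    refine ⟨γ, _, hγ, f0, f1.trans e4, ?_, h.sec_geo hγ f0 f1 (h.weak hq) e5⟩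
    linarith [dist_triangle_left q (lf b (β t)) (c 0), h.le_l (h.weak hq), h.le_l e5]
  obtain ⟨h1, h2⟩ := P216TP.topR (P216L.suph E3) h.met h.hs hg' isOpen_Ioo ordConnected_Ioo hu
    h.k0 hR
  refine ⟨h1.subset hI (convex_Icc _ _), fun γ A hγ f0 f1 => ?_⟩
  have := h2 γ A hγ f1 m0 (f0.trans e0.symm) (h.sec_geo hγ f0 f1 (h.weak h.tu.zero_mem) (h.weak hq))
    L (hI ⟨hL, le_rfl⟩) hL
  rwa [e0, e1] at this

theorem cc_geo (h : Gs c σ l s₀ s₁ k) (hβ : MinGeo g U β L) (e0 : β 0 = (c 0).1) (e1 : β L = b.1)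
    (hb : b ∈ Pt c σ l (200 * s₁) (60 * s₀)) (hq : q ∈ Pt c σ l (200 * s₁) (60 * s₀)) {t : ℝ}
    (ht : t ∈ Icc (0 : ℝ) 1) (o : Cp g U x) :
    ip (c 0) q (lf o (β (t * L))) ≤ t * ip (c 0) q b + (k * (2 * l)) ^ 2 * l ^ 2 := by
  have hL := hβ.nonneg
  have mt : t * L ∈ Icc 0 L := ⟨mul_nonneg ht.1 hL, mul_le_of_le_one_left hL ht.2⟩
  have h1 := (h.top hβ e0 e1 hb hq).1.2 (left_mem_Icc.2 hL) (right_mem_Icc.2 hL)
    (sub_nonneg.2 ht.2) ht.1 (by ring)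
  have e2 : dist (c 0) b = L := by
    rw [Cp.dist_eq, ← e0, ← e1, minGeo_dd hβ ⟨le_rfl, hL⟩ ⟨hL, le_rfl⟩, zero_sub, abs_neg,
      abs_of_nonneg hL]
  have e3 : dist (c 0) (lf o (β (t * L))) = t * L := by
    rw [Cp.dist_eq, lf_geo o (c 0) hβ e0 mt, ← e0, minGeo_dd hβ ⟨le_rfl, hL⟩ mt, zero_sub, abs_neg,
      abs_of_nonneg mt.1]
  have e4 : L ≤ l := e2 ▸ h.le_l (h.weak hb)
  simp only [smul_eq_mul, mul_zero, zero_add, e0, e1] at h1
  unfold ip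
  rw [e2, e3, Cp.dist_eq q, lf_geo o (c 0) hβ e0 mt, Cp.dist_eq q, dist_comm (c 0) q, Cp.dist_eq q]
  have k1 : (t - t ^ 2) * L ^ 2 ≤ 1 * l ^ 2 :=
    mul_le_mul (by nlinarith [ht.1, ht.2]) (pow_le_pow_left₀ hL e4 2) (sq_nonneg _) zero_le_one
  have k2 := mul_le_mul_of_nonneg_left k1 (sq_nonneg (k * (2 * l)))
  nlinarith [mul_nonneg (sq_nonneg (k * (2 * l))) (sq_nonneg l)]

theorem aco (h : Gs c σ l s₀ s₁ k) {η : ℝ} (hη : (k * (2 * l)) ^ 2 ≤ η) :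
    ∃ H lg, ACo (Pt c σ l (200 * s₁) (60 * s₀)) (c 0) H lg l η := by
  have h0 : ∀ a : Cp g U x, ∃ γ, a ∈ Pt c σ l (200 * s₁) (60 * s₀) →
      MinGeo g U γ (dist (c 0) a) ∧ γ 0 = (c 0).1 ∧ γ (dist (c 0) a) = a.1 := fun a => by
    by_cases ha : a ∈ Pt c σ l (200 * s₁) (60 * s₀)
    · exact (h.geo (c 0) a (h.le_l (h.weak h.tu.zero_mem)) (h.le_l (h.weak ha))).imp
        fun _ k _ => k
    · exact ⟨fun _ => x, fun k => absurd k ha⟩
  choose G hG using h0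
  have hA := met_pd h.met (c 0).mem
  obtain ⟨e, he, -⟩ := hA.extend (ι := Fin 3) (by simp) 0 ∅ (by simp)
  have hT : ∀ v w : E3, ‖(WithLp.toLp 2 fun i => g (c 0).1 v (e i) : E3) -
      WithLp.toLp 2 fun i => g (c 0).1 w (e i)‖ ^ 2 = g (c 0).1 (v - w) (v - w) := fun v w => by
    rw [EuclideanSpace.norm_sq_eq, ← he.sq hA]
    exact Finset.sum_congr rfl fun i _ => by simp
  have mt : ∀ t ∈ Icc (0 : ℝ) 1, ∀ a, t * dist (c 0) a ∈ Icc 0 (dist (c 0) a) := fun t ht a =>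
    ⟨mul_nonneg ht.1 dist_nonneg, mul_le_of_le_one_left dist_nonneg ht.2⟩
  have hη' := mul_le_mul_of_nonneg_right hη (sq_nonneg l)
  have un : ∀ a ∈ Pt c σ l (200 * s₁) (60 * s₀),
      g (c 0).1 (vel E3 (G a) 0) (vel E3 (G a) 0) = 1 := fun a ha => by
    rw [← (hG a ha).2.1]; exact minGeo_sp (hG a ha).1 ⟨le_rfl, dist_nonneg⟩
  refine ⟨fun t a => lf (c 0) (G a (t * dist (c 0) a)),
    fun a => WithLp.toLp 2 fun i => g (c 0).1 (dist (c 0) a • vel E3 (G a) 0) (e i),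
    h.tu.zero_mem, fun a ha => h.le_l (h.weak ha), fun t ht a ha => ?_, fun t ht a ha => ?_,
    fun t ht q hq b hb => ?_, fun a ha => ?_, fun a ha b hb => ?_⟩
  · obtain ⟨k1, k2, k3⟩ := hG a ha
    have := h.tu.rad_mem (sg_lf (c 0) (c 0) k1 k2) (by rw [k2, lf_self]) (by rwa [k3, lf_self])
      (mt t ht a)
    exact this
  · obtain ⟨k1, k2, k3⟩ := hG a ha
    have := (sg_lf (c 0) (c 0) k1 k2).dist_zero (mt t ht a)
    rwa [k2, lf_self] at this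
  · obtain ⟨k1, k2, k3⟩ := hG b hb
    exact (h.cc_geo k1 k2 k3 hb hq ht _).trans (by linarith)
  · have := hT (dist (c 0) a • vel E3 (G a) 0) 0
    rw [← sq_eq_sq₀ (norm_nonneg _) dist_nonneg]
    refine Eq.trans ?_ (this.trans ?_)
    · congr 2; ext i; simp
    · simp only [sub_zero, map_smul, smul_apply, un a ha, smul_eq_mul]; ring
  · obtain ⟨k1, k2, k3⟩ := hG b hb
    obtain ⟨j1, j2, j3⟩ := hG a ha
    have h1 := (h.top k1 k2 k3 hb ha).2 _ _ j1 j2 j3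
    rw [hT]
    simp only [map_sub, map_smul, sub_apply, smul_apply,
      un a ha, un b hb, smul_eq_mul, hA.symm (vel E3 (G b) 0) (vel E3 (G a) 0)]
    have h2 := mul_le_mul_of_nonneg_left
      (pow_le_pow_left₀ dist_nonneg (h.le_l (h.weak hb)) 2) (sq_nonneg (k * (2 * l)))
    nlinarith

end Gs

end Vale.Agent.P216N
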