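import Vale.Agent.P216N.Chain
import Vale.Agent.P216R.Flow

/-!
# Bounded curvature at bounded distance
-/

open scoped Manifold ContDiff Topology
open Set

set_option maxSynthPendingDepth 3

noncomputable section

namespace Vale.Agent.P216N

open Vale.Agent.P216R Vale.Agent.P216CP Vale.Agent.P216BF Vale.Agent.P216DC

variable {M : Type} [TopologicalSpace M] [ChartedSpace E3 M] [IsManifold 𝓘(ℝ, E3) ∞ M]

theorem setup {g : Ten E3 M} {U : Set M} {x y : M} {R r Λ C s₀ s₁ : ℝ} {Q : M → ℝ → Prop}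
    (hg : Met g U) (hH : Hs U) (hC : Cpt g U x R) (hy : y ∈ bl g U x R) (hΛ : 1000 ≤ Λ)
    (h1 : 1 ≤ C) (p0 : 0 < s₀) (p1 : C * s₀ ^ 2 < s₁ ^ 2) (p1' : 0 < s₁) (p2 : C * s₁ ^ 2 < r ^ 2)
    (p3 : 0 < r) (hx : Sc g x ≤ 1 / r ^ 2) (hS : C / s₀ ^ 2 < Sc g y)
    (hN : ∀ y ∈ bl g U x R, ∀ σ > 0, σ ≤ r → σ ^ 2 * Sc g y = 1 →
      (∀ z ∈ bl g U y (Λ * σ), Sc g z ≤ C / σ ^ 2) ∧
      ∀ γ, MinGeo g U γ (2 * (Λ * σ)) → γ (Λ * σ) = y → Q y σ) :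
    ∃ (γ : ℝ → M) (L a b : ℝ) (σ : ℝ → ℝ), MinGeo g U γ L ∧ γ 0 = x ∧ L < R ∧
      1000 * s₁ ≤ b - a ∧ σ b = s₀ ∧ σ a = s₁ ∧ ∀ s ∈ Icc a b, 1000 * σ s ≤ s ∧
        s + 1000 * σ s ≤ L ∧ s₀ ≤ σ s ∧ σ s ≤ s₁ ∧ σ s ^ 2 * Sc g (γ s) = 1 ∧ Q (γ s) (σ s) := by
  obtain ⟨γ, hγ, e0, e1⟩ := exists_minGeo hg hH hC hy
  have hL := dd_lt_of_bl hy
  set L := dd g U x y
  have L0 := hγ.nonneg
  obtain ⟨ε, hε, hI⟩ := minGeo_isGeo hγ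
  have hf : ContinuousOn (fun s => Sc g (γ s)) (Icc 0 L) := hg.continuousOn_Sc.comp
    (hI.cont.mono fun t ht => ⟨by linarith [ht.1], by linarith [ht.2]⟩) fun t ht => minGeo_mem hγ ht
  have q01 : s₀ ^ 2 < s₁ ^ 2 := by nlinarith [sq_nonneg s₀]
  have q1r : s₁ ^ 2 < r ^ 2 := by nlinarith [sq_nonneg s₁]
  have i1 : 1 / r ^ 2 ≤ 1 / s₁ ^ 2 := one_div_le_one_div_of_le (by positivity) q1r.le
  have i2 : 1 / s₁ ^ 2 ≤ 1 / s₀ ^ 2 := one_div_le_one_div_of_le (by positivity) q01.le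
  have i3 : 1 / s₀ ^ 2 ≤ C / s₀ ^ 2 := by gcongr
  have i4 : C / r ^ 2 < 1 / s₁ ^ 2 := by rw [div_lt_div_iff₀ (by positivity) (by positivity)]; linarith
  have i5 : C / s₁ ^ 2 < 1 / s₀ ^ 2 := by rw [div_lt_div_iff₀ (by positivity) (by positivity)]; linarith
  obtain ⟨b, hb, eb, hb'⟩ := exists_first (y := 1 / s₀ ^ 2) L0 hf (by rw [e0]; linarith)
    (by rw [e1]; linarith)
  have hfb := hf.mono (Icc_subset_Icc_right hb.2)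
  obtain ⟨a, ha, ea, ha'⟩ := exists_last (y := 1 / s₁ ^ 2) hb.1 hfb (by rw [e0]; linarith)
    (by rw [eb]; linarith)
  obtain ⟨w, hw, ew⟩ := intermediate_value_Icc ha.1 (hfb.mono (Icc_subset_Icc_right ha.2))
    (show 1 / r ^ 2 ∈ Icc (Sc g (γ 0)) (Sc g (γ a)) from ⟨by rwa [e0], by rwa [ea]⟩)
  have mB : ∀ s ∈ Icc 0 L, γ s ∈ bl g U x R := fun s hs =>
    e0 ▸ P216TP.MinGeo.mem_bl hγ hL ⟨le_rfl, L0⟩ hs
  have far : ∀ s ∈ Icc 0 L, ∀ u ∈ Icc 0 L, ∀ σ > 0, σ ≤ r → σ ^ 2 * Sc g (γ s) = 1 →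
      C / σ ^ 2 < Sc g (γ u) → Λ * σ ≤ |s - u| := fun s hs u hu σ s0 s1 e k => by
    refine le_of_not_gt fun k' => ((hN _ (mB s hs) σ s0 s1 e).1 (γ u) ?_).not_gt k
    exact (hγ.min s hs u hu).trans_lt ((ENNReal.ofReal_lt_ofReal_iff (by positivity)).2 k')
  have sq : ∀ ρ > (0 : ℝ), (√(1 / ρ ^ 2))⁻¹ = ρ := fun ρ hρ => by
    rw [one_div, Real.sqrt_inv, inv_inv, Real.sqrt_sq hρ.le]
  have s1r : s₁ ≤ r := (pow_le_pow_iff_left₀ p1'.le p3.le two_ne_zero).1 q1r.le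
  have mL : ∀ s ∈ Icc a b, s ∈ Icc 0 L := fun s hs => ⟨ha.1.trans hs.1, hs.2.trans hb.2⟩
  refine ⟨γ, L, a, b, fun s => (√(Sc g (γ s)))⁻¹, hγ, e0, hL, ?_, by simp only [eb, sq _ p0],
    by simp only [ea, sq _ p1'], fun s hs => ?_⟩
  · have := far a (mL a ⟨le_rfl, ha.2⟩) b hb s₁ p1' s1r (by rw [ea]; field_simp) (by rwa [eb])
    rw [abs_of_nonpos (sub_nonpos.2 ha.2)] at this
    nlinarith
  have j1 := ha' s hs
  have j2 := hb' s ⟨(mL s hs).1, hs.2⟩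
  have j0 : 0 < Sc g (γ s) := lt_of_lt_of_le (by positivity) j1
  have j3 : s₀ ≤ (√(Sc g (γ s)))⁻¹ := by
    rw [← sq _ p0]; exact inv_anti₀ (Real.sqrt_pos.2 j0) (Real.sqrt_le_sqrt j2)
  have j4 : (√(Sc g (γ s)))⁻¹ ≤ s₁ := by
    rw [← sq _ p1']; exact inv_anti₀ (by positivity) (Real.sqrt_le_sqrt j1)
  have j5 : (√(Sc g (γ s)))⁻¹ ^ 2 * Sc g (γ s) = 1 := by
    rw [inv_pow, Real.sq_sqrt j0.le, inv_mul_cancel₀ j0.ne']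
  set σ := (√(Sc g (γ s)))⁻¹
  have s0 : 0 < σ := by linarith
  have j6 := far w ⟨hw.1, hw.2.trans (ha.2.trans hb.2)⟩ s (mL s hs) r p3 le_rfl
    (by rw [show Sc g (γ w) = _ from ew]; field_simp) (by linarith)
  have j7 := far s (mL s hs) L ⟨L0, le_rfl⟩ σ s0 (j4.trans s1r) j5 (by
    rw [e1]; exact lt_of_le_of_lt (by gcongr) hS)
  rw [abs_of_nonpos (by linarith [hw.2, hs.1])] at j6
  rw [abs_of_nonpos (by linarith [(mL s hs).2])] at j7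
  have j8 : Λ * σ ≤ Λ * r := mul_le_mul_of_nonneg_left (j4.trans s1r) (by linarith)
  have j9 : 1000 * σ ≤ Λ * σ := mul_le_mul_of_nonneg_right hΛ s0.le
  refine ⟨by linarith [hw.1], by linarith, j3, j4, j5, (hN _ (mB s (mL s hs)) σ s0 (j4.trans s1r)
    j5).2 (fun t => γ (t + (s - Λ * σ))) ?_ (by rw [add_sub_cancel])⟩
  have := (minGeo_shift hγ (a := s - Λ * σ) (b := s + Λ * σ) (by linarith [hw.1]) (by linarith)
    (by linarith)).1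
  rwa [show s + Λ * σ - (s - Λ * σ) = 2 * (Λ * σ) by ring] at this

theorem low_arith {u s l σ e c θ A r l₂ : ℝ} (hσ : 0 < σ) (hc : 0 < c) (hl : 0 < l)
    (hu : l₂ * l ≤ u) (h2 : 0 < l₂) (hs : s = θ * r) (hA : l ≤ A * r) (hθ : 24000 * A * c = θ)
    (he : 8 * e ≤ (60 * c * l₂) ^ 2)
    (h : (u * s / (400 * l)) ^ 2 ≤ 1600 * σ ^ 2 + 4 * (e * l ^ 2)) : c * u ≤ σ := by
  have u0 : 0 < u := lt_of_lt_of_le (by positivity) hu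
  have h1 : 60 * c * u ≤ u * s / (400 * l) := by
    rw [le_div_iff₀ (by positivity), hs, ← hθ]
    nlinarith [mul_le_mul_of_nonneg_left hA (mul_pos hc u0).le]
  have h3 := pow_le_pow_left₀ (by positivity) h1 2
  have h4 := pow_le_pow_left₀ (by positivity) (mul_le_mul_of_nonneg_left hu
    (show 0 ≤ 60 * c by positivity)) 2
  have h5 := mul_le_mul_of_nonneg_right he (sq_nonneg l)
  refine (pow_le_pow_iff_left₀ (by positivity) hσ.le two_ne_zero).1 ?_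
  nlinarith [sq_nonneg σ]

theorem k_arith {η e s l A r τ : ℝ} (η0 : 0 < η) (s0 : 0 < s) (hs : s = τ * r) (l0 : 0 < l)
    (lA : l ≤ A * r) (h : η * (4 * A ^ 2) ≤ e * τ ^ 2) : (√η / s * (2 * l)) ^ 2 ≤ e := by
  rw [mul_pow, div_pow, Real.sq_sqrt η0.le, div_mul_eq_mul_div, div_le_iff₀ (by positivity), hs]
  have := mul_le_mul_of_nonneg_left (pow_le_pow_left₀ l0.le lA 2) η0.le
  nlinarith [mul_le_mul_of_nonneg_right h (sq_nonneg r)]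

/-- at a suitable point of the tube the distance to the end is almost a cone potential -/
theorem core {g : Ten E3 M} {U : Set M} {x : M} {c : ℝ → Cp g U x} {σ : ℝ → ℝ}
    {l s₀ s₁ k κ ε u : ℝ} {N : ℕ} (h : Gs c σ l s₀ s₁ k) (κ0 : 0 < κ) (κ1 : κ ≤ 1) (ε0 : 0 < ε)
    (u1 : 1000 * s₀ ≤ κ * u) (u2 : u ≤ 1 / 4 * l) (ρ1 : κ * u ≤ σ u)
    (hM : ∀ n ≤ N, ∀ a ∈ Pt c σ l (200 * s₁) (60 * s₀), ∀ b ∈ Pt c σ l (200 * s₁) (60 * s₀),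
      ∀ m ∈ Pt c σ l (200 * s₁) (60 * s₀), dist (c 0) a ≤ 2 * u → dist (c 0) b ≤ 2 * u →
      dist (c 0) m ≤ 2 * u → MidIneq (dist (c 0) a) (dist (c 0) b) (dist (c 0) m) (dist a m)
        (dist b m) (dist a b) (1 - 1 / ((n : ℝ) + 2)) (ε * κ ^ 2 * u ^ 2) (ε * κ ^ 2 * u)) :
    (∀ a ∈ bl g U (c u).1 (σ u), |dd g U (c 0).1 a| ≤ (1 / κ + 1) * σ u) ∧
    (∀ a ∈ bl g U (c u).1 (σ u), ∀ b ∈ bl g U (c u).1 (σ u),
      |dd g U (c 0).1 a - dd g U (c 0).1 b| ≤ dd g U a b) ∧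
    ∀ n ≤ N, ∀ a ∈ bl g U (c u).1 (σ u), ∀ b ∈ bl g U (c u).1 (σ u),
      ∀ m ∈ bl g U (c u).1 (σ u), MidIneq (dd g U (c 0).1 a) (dd g U (c 0).1 b) (dd g U (c 0).1 m)
        (dd g U a m) (dd g U b m) (dd g U a b) (1 - 1 / ((n : ℝ) + 2)) (ε * σ u ^ 2) (ε * σ u) := by
  have T := h.tu
  have p0 := T.pos
  have p1 := T.le
  have p2 := T.len
  have u0 : 0 < u := (mul_pos_iff_of_pos_left κ0).1 (by linarith)
  have u3 : κ * u ≤ u := mul_le_of_le_one_left u0.le κ1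
  have mu : u ∈ Icc 0 l := ⟨u0.le, by linarith⟩
  have ρ2 : σ u ≤ u := by
    by_contra! k
    have := (T.cmp u mu 0 T.m0 (by rw [zero_sub, abs_neg, abs_of_pos u0]; linarith)).1
    rw [T.zero] at this
    linarith
  have key : ∀ z ∈ bl g U (c u).1 (σ u), ∃ q : Cp g U x, q.1 = z ∧
      q ∈ Pt c σ l (200 * s₁) (60 * s₀) ∧ dist (c 0) q ≤ u + σ u := fun z hz => by
    have j1 := lf_of (c 0) _ (ne_top_of_bl hz)
    have j2 := Cp.mem_bl.1 (j1.symm ▸ hz)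
    exact ⟨_, j1, T.ball_mem u0.le (by linarith) j2.le,
      by linarith [dist_triangle (c 0) (c u) (lf (c 0) z), T.seg.dist_zero mu]⟩
  refine ⟨fun z hz => ?_, fun z hz z' hz' => ?_, fun n hn a₁ h₁ a₂ h₂ a₃ h₃ => ?_⟩
  · obtain ⟨q, rfl, -, j⟩ := key z hz
    have : u ≤ 1 / κ * σ u := by rw [one_div, ← div_eq_inv_mul, le_div_iff₀ κ0]; linarith
    rw [abs_of_nonneg dd_nonneg, ← Cp.dist_eq]
    linarith
  · obtain ⟨q, rfl, -⟩ := key z hz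
    obtain ⟨q', rfl, -⟩ := key z' hz'
    exact abs_dd_sub ((c 0).ne q) ((c 0).ne q')
  · obtain ⟨q₁, rfl, i₁, j₁⟩ := key a₁ h₁
    obtain ⟨q₂, rfl, i₂, j₂⟩ := key a₂ h₂
    obtain ⟨q₃, rfl, i₃, j₃⟩ := key a₃ h₃
    refine (hM n hn q₁ i₁ q₂ i₂ q₃ i₃ (by linarith) (by linarith) (by linarith)).mono ?_ ?_
    · rw [mul_assoc, ← mul_pow]; gcongr
    · rw [mul_assoc]; gcongr; nlinarith [mul_pos κ0 u0]

variable [MeasurableSpace M]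

theorem tube {g : Ten E3 M} {U : Set M} {x : M} {γ : ℝ → M} {v R L a b s₀ s₁ η : ℝ} {σ : ℝ → ℝ}
    {Q : M → ℝ → Prop} (hg : Met g U) (hH : Hs U) (hC : Cpt g U x (10 * R)) (hγ : MinGeo g U γ L)
    (g0 : γ 0 = x) (hL : L < R) (p0 : 0 < s₀) (p1 : s₀ ≤ s₁) (p2 : 1000 * s₁ ≤ b - a)
    (σb : σ b = s₀) (σa : σ a = s₁) (η0 : 0 < η)
    (hQ : ∀ s ∈ Icc a b, 1000 * σ s ≤ s ∧ s + 1000 * σ s ≤ L ∧ s₀ ≤ σ s ∧ σ s ≤ s₁ ∧
      σ s ^ 2 * Sc g (γ s) = 1 ∧ MN v g U (γ s) (σ s) ∧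
      (∀ z ∈ bl g U (γ s) (1000 * σ s), SecGe g z (-(η / σ s ^ 2))) ∧ Q (γ s) (σ s)) :
    ∃ (c : ℝ → Cp g U x) (ρ : ℝ → ℝ) (l : ℝ), Gs c ρ l s₀ s₁ (√η / s₀) ∧ l ≤ R ∧
      (∀ u ∈ Icc 0 l, Cpt g U (c u).1 (ρ u) ∧ ρ u ^ 2 * Sc g (c u).1 = 1 ∧
        MN v g U (c u).1 (ρ u) ∧ Q (c u).1 (ρ u)) ∧ ∀ u, 60 * s₀ < u → u ≤ l / 2 →
      (u * s₁ / (400 * l)) ^ 2 ≤ 1600 * ρ u ^ 2 + 4 * ((√η / s₀ * (2 * l)) ^ 2 * l ^ 2) := by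
  have hxx : ed g U x x ≠ ⊤ := by
    rw [ed_self (g0 ▸ minGeo_mem hγ ⟨le_rfl, hγ.nonneg⟩)]; exact ENNReal.zero_ne_top
  set o : Cp g U x := ⟨x, hxx⟩
  have G := chain (v := v) (k := √η / s₀) hg hH hC hγ g0 hL p0 p1 p2 (by positivity) σb
    (fun s hs => by
      obtain ⟨k1, k2, k3, k4, k5, k6, k7, -⟩ := hQ s hs
      refine ⟨k1, k2, k3, k4, k5, k6, fun z hz => secGe_mono hg (bl_subset hz) (k7 z hz) ?_⟩
      rw [div_pow, Real.sq_sqrt η0.le]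
      gcongr) o
  have mL : ∀ s ∈ Icc a b, s ∈ Icc 0 L := fun s hs => by
    obtain ⟨k1, k2, k3, -⟩ := hQ s hs
    exact ⟨by linarith, by linarith⟩
  have ma := mL a ⟨le_rfl, by linarith⟩
  have mb := mL b ⟨by linarith, le_rfl⟩
  have mm : ∀ u ∈ Icc 0 (b - a), b - u ∈ Icc a b := fun u hu =>
    ⟨by linarith [hu.2], by linarith [hu.1]⟩
  have ev : ∀ u ∈ Icc 0 (b - a), (lf o (γ (b - u))).1 = γ (b - u) := fun u hu =>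
    lf_geo o o hγ g0 (mL _ (mm u hu))
  refine ⟨_, _, _, G, by linarith [ma.1, mb.2], fun u hu => ?_, fun u h1 h2 => ?_⟩
  · obtain ⟨-, -, -, k4, k5, k6, -, k8⟩ := hQ _ (mm u hu)
    have my : γ (b - u) ∈ cbl g U x R := g0 ▸ bl_subset_cbl (P216TP.MinGeo.mem_bl hγ hL
      ⟨le_rfl, hγ.nonneg⟩ (mL _ (mm u hu)))
    rw [ev u hu]
    exact ⟨(hC.shift hg (by linarith [hγ.nonneg]) (by linarith [hγ.nonneg]) my).mono
      (by linarith [ma.1, mb.2]), k5, k6, k8⟩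
  have mf : b - a - 300 * s₁ ∈ Icc 0 (b - a) := ⟨by linarith, by linarith⟩
  obtain ⟨-, -, -, -, -, ⟨-, -, -, w, w1, w2⟩, -⟩ := hQ _ (mm _ mf)
  rw [← ev _ mf] at w1
  have w3 := fun i => lf_of o _ (ne_top_of_bl (w1 i))
  exact G.low (γ := fun u => γ (b - u)) (a := fun i => lf o (w i))
    (by simpa [← sub_eq_neg_add] using (minGeo_affine hγ (k := -1) (c := b) (L' := b - a)
      (by norm_num) (by linarith)
      fun s hs => ⟨by linarith [hs.2, ma.1], by linarith [hs.1, mb.2]⟩).1) ev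
    (by rwa [sub_sub_cancel]) (fun i => (Cp.mem_bl.1 ((w3 i).symm ▸ w1 i)).le)
    (fun i j hij => by rw [Cp.dist_eq, w3, w3]; exact w2 i j hij) h1 h2

theorem bcbd_of (hU : ULIM) (hX : CEX) : BCBD := by
  intro v hv Λ hΛ c hc C A
  obtain ⟨C', C1, C2⟩ : ∃ C', 1 ≤ C' ∧ C ≤ C' := ⟨max C 1, le_max_right _ _, le_max_left _ _⟩
  obtain ⟨A', A1, A2⟩ : ∃ A', 1 ≤ A' ∧ A ≤ A' := ⟨max A 1, le_max_right _ _, le_max_left _ _⟩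
  obtain ⟨c', c0, c1, c2⟩ : ∃ c', 0 < c' ∧ c' ≤ 1 ∧ c' ≤ c :=
    ⟨min c 1, lt_min hc one_pos, min_le_right _ _, min_le_left _ _⟩
  obtain ⟨θ, θ0, θ1, θ2⟩ : ∃ θ, 0 < θ ∧ θ ≤ 1 ∧ C' * θ ^ 2 < 1 :=
    ⟨1 / (C' + 1), by positivity, (div_le_one (by positivity)).2 (by linarith), by
      rw [div_pow, one_pow, mul_one_div, div_lt_one (by positivity)]; nlinarith⟩
  obtain ⟨κ, κ0, κ1, κ2⟩ : ∃ κ, 0 < κ ∧ κ ≤ 1 ∧ 24000 * A' * κ = θ :=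
    ⟨θ / (24000 * A'), by positivity, (div_le_one (by positivity)).2 (by linarith), by field_simp⟩
  obtain ⟨ε, ε0, N, hX⟩ := hX v hv c' c0 C (1 / κ + 1)
  obtain ⟨l₂, l0, ηU, ηU0, hU⟩ := hU (ε * κ ^ 2) (by positivity) N (1 / 4) (by positivity)
  obtain ⟨m, m0, m1, m2⟩ : ∃ m, 0 < m ∧ m ≤ θ ∧ m ≤ κ * l₂ :=
    ⟨min θ (κ * l₂), by positivity, min_le_left _ _, min_le_right _ _⟩
  obtain ⟨e, e0, e1, e2⟩ : ∃ e, 0 < e ∧ e ≤ ηU ∧ 8 * e ≤ (60 * κ * l₂) ^ 2 :=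
    ⟨min ηU ((60 * κ * l₂) ^ 2 / 8), by positivity, min_le_left _ _,
      by linarith [min_le_right ηU ((60 * κ * l₂) ^ 2 / 8)]⟩
  obtain ⟨η, η0, η1, η2⟩ : ∃ η, 0 < η ∧ η ≤ ε ∧ η ≤ e * (θ * m) ^ 2 / (4 * A' ^ 2) :=
    ⟨min ε _, by positivity, min_le_left _ _, min_le_right _ _⟩
  rw [le_div_iff₀ (by positivity)] at η2
  have m3 : C' * m ^ 2 < 1 := lt_of_le_of_lt (by gcongr) θ2
  refine ⟨C' / (θ * m) ^ 2, η, η0, fun M _ _ _ _ _ g U t x r r0 hg hH hC hx hN y hy => ?_⟩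
  by_contra! hS
  have p0 : 0 < θ * m * r := by positivity
  have q1 : 0 < θ * r := by positivity
  have p1 : θ * m * r ≤ θ * r := by gcongr; exact mul_le_of_le_one_right θ0.le (m1.trans θ1)
  obtain ⟨γ, L, a, b, σ, hγ, g0, hL, p2, σb, σa, hQ⟩ := setup (s₀ := θ * m * r) (s₁ := θ * r)
    (Q := fun y σ => MN v (g t) U y σ ∧
      (∀ z ∈ bl (g t) U y (1000 * σ), SecGe (g t) z (-(η / σ ^ 2))) ∧
      ParB g U y t (c * σ) (c * σ ^ 2) (C / σ ^ 2) ∧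
      ∀ s ∈ Icc (t - c * σ ^ 2) t, ∀ z ∈ bl (g t) U y (c * σ), SecGe (g s) z (-(η / σ ^ 2)))
    hg hH (hC.mono (by linarith [pos_of_mem_bl hy])) hy hΛ C1 p0
    ((show _ = C' * m ^ 2 * (θ * r) ^ 2 by ring).trans_lt
      (mul_lt_of_lt_one_left (by positivity) m3)) q1
    ((show _ = C' * θ ^ 2 * r ^ 2 by ring).trans_lt (mul_lt_of_lt_one_left (by positivity) θ2))
    r0 hx (by rwa [mul_pow, ← div_div])
    fun y hy σ s0 s1 s2 => ⟨fun z hz => ((hN y hy σ s0 s1 s2).bd z hz).trans (by gcongr),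
      (hN y hy σ s0 s1 s2).nk⟩
  obtain ⟨w, ρ, l, G, lA, hw, lw⟩ := tube (Q := fun y σ =>
      ParB g U y t (c * σ) (c * σ ^ 2) (C / σ ^ 2) ∧
      ∀ s ∈ Icc (t - c * σ ^ 2) t, ∀ z ∈ bl (g t) U y (c * σ), SecGe (g s) z (-(η / σ ^ 2)))
    hg hH hC hγ g0 hL p0 p1 p2 σb σa η0 hQ
  clear hQ hN
  have p3 := G.tu.len
  have l0' : 0 < l := by linarith
  have lA' : l ≤ A' * r := lA.trans (by gcongr)
  have hk := k_arith η0 p0 rfl l0' lA' η2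
  obtain ⟨H, lg, hA⟩ := G.aco (hk.trans e1)
  obtain ⟨u, hu, hM⟩ := hU _ _ _ H lg _ l0' hA
  have u1 : 1000 * (θ * m * r) ≤ κ * u := by
    calc _ = m * (1000 * (θ * r)) := by ring
      _ ≤ κ * l₂ * l := by gcongr
      _ ≤ _ := by rw [mul_assoc]; gcongr; exact hu.1
  have u0 : 0 < u := lt_of_lt_of_le (by positivity) hu.1
  have u2 : κ * u ≤ u := mul_le_of_le_one_left u0.le κ1
  have mu : u ∈ Icc 0 l := ⟨u0.le, by linarith [hu.2]⟩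
  obtain ⟨k4, k5, k6, k8, k9⟩ := hw u mu
  have ρ0 : 0 < ρ u := p0.trans_le (G.tu.lo u mu)
  obtain ⟨f1, f2, f3⟩ := core G κ0 κ1 ε0 u1 hu.2 (low_arith ρ0 κ0 l0' hu.1 l0 rfl lA' κ2 e2
    ((lw u (by linarith) (by linarith [hu.2])).trans (by gcongr))) hM
  have ρ3 : c' * ρ u ≤ ρ u := mul_le_of_le_one_left ρ0.le c1
  have b0 : bl (g t) U (w u).1 (c' * ρ u) ⊆ bl (g t) U (w u).1 (ρ u) := bl_mono ρ3
  have b1 : bl (g t) U (w u).1 (c' * ρ u) ⊆ bl (g t) U (w u).1 (c * ρ u) := bl_mono (by gcongr)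
  have t1 : Icc (t - c' * ρ u ^ 2) t ⊆ Icc (t - c * ρ u ^ 2) t := Icc_subset_Icc_left (by gcongr)
  exact hX M g U t (w u).1 (ρ u) (fun z => dd (g t) U (w 0).1 z) ρ0 hg hH (w u).mem (k4.mono ρ3) k5
    ⟨k8.1.mono t1 (hg.isOpen_bl _ _) b1, fun s hs z hz => k8.2 s (t1 hs) z (b1 hz)⟩
    (fun s hs z hz => secGe_mono (RF.met k8.1 (t1 hs)) (b1 hz) (k9 s (t1 hs) z (b1 hz)) (by gcongr))
    (k6.vol _ ⟨by linarith, by linarith⟩) (fun z hz => f1 z (b0 hz))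
    (fun z hz z' hz' => f2 z (b0 hz) z' (b0 hz'))
    fun n hn a₁ h₁ a₂ h₂ a₃ h₃ => f3 n hn a₁ (b0 h₁) a₂ (b0 h₂) a₃ (b0 h₃)

end Vale.Agent.P216N
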