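import Vale.Agent.P216N.Aco

/-!
# A chain of metric necks along a minimising geodesic
-/

open scoped Manifold ContDiff Topology
open Set

set_option maxSynthPendingDepth 3

noncomputable section

namespace Vale.Agent.P216N

open Vale.Agent.P216R Vale.Agent.P216CP Vale.Agent.P216BF

theorem exists_first {f : ℝ → ℝ} {a b y : ℝ} (hab : a ≤ b) (hf : ContinuousOn f (Icc a b))
    (h1 : f a ≤ y) (h2 : y ≤ f b) : ∃ s ∈ Icc a b, f s = y ∧ ∀ u ∈ Icc a s, f u ≤ y := by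
  have hc : IsCompact (Icc a b ∩ f ⁻¹' {y}) :=
    isCompact_Icc.of_isClosed_subset (hf.preimage_isClosed_of_isClosed isClosed_Icc
      isClosed_singleton) inter_subset_left
  obtain ⟨s, hs, hm⟩ := hc.exists_isLeast (intermediate_value_Icc hab hf ⟨h1, h2⟩)
  refine ⟨s, hs.1, hs.2, fun u hu => le_of_not_gt fun k => ?_⟩
  obtain ⟨s', hs', e⟩ := intermediate_value_Icc hu.1
    (hf.mono (Icc_subset_Icc_right (hu.2.trans hs.1.2))) ⟨h1, k.le⟩
  have := hm ⟨⟨hs'.1, hs'.2.trans (hu.2.trans hs.1.2)⟩, e⟩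
  rw [le_antisymm hu.2 (this.trans hs'.2), hs.2] at k
  exact lt_irrefl _ k

theorem exists_last {f : ℝ → ℝ} {a b y : ℝ} (hab : a ≤ b) (hf : ContinuousOn f (Icc a b))
    (h1 : f a ≤ y) (h2 : y ≤ f b) : ∃ s ∈ Icc a b, f s = y ∧ ∀ u ∈ Icc s b, y ≤ f u := by
  obtain ⟨s, hs, e, hm⟩ := exists_first (f := fun u => -f (a + b - u)) (y := -y) hab
    (hf.comp (by fun_prop) fun u hu => ⟨by linarith [hu.2], by linarith [hu.1]⟩).neg
    (by simpa using h2) (by simpa using h1)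
  refine ⟨a + b - s, ⟨by linarith [hs.2], by linarith [hs.1]⟩, neg_injective e, fun u hu => ?_⟩
  simpa using hm (a + b - u) ⟨by linarith [hu.2], by linarith [hu.1]⟩

theorem MidIneq.mono {A B M x y z t e s e' s' : ℝ} (h : MidIneq A B M x y z t e s) (he : e ≤ e')
    (hs : s ≤ s') : MidIneq A B M x y z t e' s' :=
  ⟨h.1.trans (by gcongr), h.2.trans (by gcongr)⟩

theorem le_two_mul {a b R : ℝ} (ha : 0 < a) (hb : 0 < b) (h1 : a ^ 2 * R ≤ 4)
    (h2 : 1 ≤ b ^ 2 * R) : a ≤ 2 * b := by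
  have hR : 0 < R := by
    by_contra k
    nlinarith [mul_nonneg (sq_nonneg b) (neg_nonneg.2 (not_lt.1 k))]
  refine (pow_le_pow_iff_left₀ ha.le (by positivity) two_ne_zero).1 (le_of_mul_le_mul_right ?_ hR)
  nlinarith

variable {M : Type} [TopologicalSpace M] [ChartedSpace E3 M] [IsManifold 𝓘(ℝ, E3) ∞ M]
  {g : Ten E3 M} {U : Set M} {x : M} {γ : ℝ → M} {L : ℝ}

/-- the scale of the necks decreases at most linearly towards the end of the tube -/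
theorem Gs.low {c : ℝ → Cp g U x} {σ : ℝ → ℝ} {l s₀ s₁ k : ℝ} (h : Gs c σ l s₀ s₁ k)
    (hγ : MinGeo g U γ l) (hc : ∀ u ∈ Icc 0 l, (c u).1 = γ u) (hl : σ l = s₁)
    {a : Fin 3 → Cp g U x} (ha : ∀ i, dist (c (l - 300 * s₁)) (a i) ≤ σ (l - 300 * s₁))
    (ha' : ∀ i j, i ≠ j → σ (l - 300 * s₁) / 10 ≤ dist (a i) (a j) ∧
      dist (a i) (a j) ≤ 3 * σ (l - 300 * s₁) / 20) {u : ℝ} (h1 : 60 * s₀ < u) (h2 : u ≤ l / 2) :
    (u * s₁ / (400 * l)) ^ 2 ≤ 1600 * σ u ^ 2 + 4 * ((k * (2 * l)) ^ 2 * l ^ 2) := by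
  have T := h.tu
  have p0 := T.pos
  have p1 := T.le
  have p2 := T.len
  have m1 : l - 300 * s₁ ∈ Icc 0 l := ⟨by linarith, by linarith⟩
  have hP := fun i => T.ball_mem m1.1 (by linarith) (ha i)
  obtain ⟨i, hi⟩ := T.fat (fun i => h.le_l (h.weak (hP i))) ha'
  have e1 := (T.cmp l ⟨by linarith, le_rfl⟩ _ m1 (by
    rw [hl, abs_of_nonpos (by linarith)]; linarith)).1
  obtain ⟨e2, e3⟩ := abs_le.1 ((T.abs_le_of m1 (a i)).trans ((ha i).trans (T.hi _ m1)))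
  set b := a i
  set ρ := dist (c 0) b with hρ
  have r0 : 0 < ρ := by linarith
  have mρ : ρ ∈ Icc 0 l := ⟨r0.le, by linarith⟩
  have mu : u ∈ Icc 0 l := ⟨by linarith, by linarith⟩
  have ht : u / ρ ∈ Icc (0 : ℝ) 1 := ⟨div_nonneg mu.1 r0.le, (div_le_one r0).2 (by linarith)⟩
  have et : u / ρ * ρ = u := div_mul_cancel₀ _ r0.ne'
  have cP : ∀ v ∈ Icc 0 (l - 201 * s₁), c v ∈ Pt c σ l (200 * s₁) (60 * s₀) := fun v hv =>
    T.ball_mem hv.1 hv.2 (by rw [dist_self]; linarith [T.lo v ⟨hv.1, by linarith [hv.2]⟩])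
  obtain ⟨β, hβ, f0, f1⟩ := h.geo (c 0) b (by rw [dist_self]; linarith) mρ.2
  have k1 := h.cc_geo hβ f0 f1 (hP i) (cP u ⟨mu.1, by linarith⟩) ht b
  have k2 := h.cc_geo (minGeo_mono hγ mρ.1 mρ.2) (hc 0 T.m0).symm (hc ρ mρ).symm
    (cP ρ ⟨mρ.1, by linarith⟩) (hP i) ht b
  rw [← hρ, et] at k1
  rw [et, ← hc u mu, lf_self, ip_comm] at k2
  have mu' : u ∈ Icc 0 ρ := ⟨mu.1, by linarith⟩
  have k3 := T.rad_mem (sg_lf b (c 0) hβ f0) (by rw [f0, lf_self]) (by rw [f1, lf_self]; exact hP i)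
    mu'
  have k4 := (sg_lf b (c 0) hβ f0).dist_zero mu'
  rw [f0, lf_self] at k4
  have k5 := (T.prj (k3.2.resolve_right (by rw [k4]; linarith)) (by rw [k4]; exact mu.2)).2
  rw [k4] at k5
  have k6 := pow_le_pow_left₀ dist_nonneg k5 2
  have k7 := mul_le_mul_of_nonneg_left k2 ht.1
  have k8 := mul_le_of_le_one_left (mul_nonneg (sq_nonneg (k * (2 * l))) (sq_nonneg l)) ht.2
  have k9 : u * s₁ / (400 * l) ≤ u / ρ * dist b (c ρ) := by
    rw [dist_comm, mul_comm 400, mul_div_mul_comm]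
    exact mul_le_mul (div_le_div_of_nonneg_left mu.1 r0 mρ.2) (by linarith) (by linarith) ht.1
  have k10 := pow_le_pow_left₀ (div_nonneg (mul_nonneg mu.1 (by linarith)) (by linarith)) k9 2
  unfold ip at k1 k7
  rw [T.seg.dist_zero mu, k4] at k1
  rw [T.seg.dist_zero mu] at k7
  rw [T.seg.dist_zero mρ, ← hρ] at k7
  rw [← hρ] at k1
  have k11 : u / ρ * (u / ρ * ρ ^ 2) = u ^ 2 := by field_simp
  nlinarith

variable [MeasurableSpace M]

theorem chain {v R a b s₀ s₁ k : ℝ} {σ : ℝ → ℝ} (hg : Met g U) (hH : Hs U)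
    (hC : Cpt g U x (10 * R)) (hγ : MinGeo g U γ L) (h0 : γ 0 = x) (hL : L < R) (p0 : 0 < s₀)
    (p1 : s₀ ≤ s₁) (p2 : 1000 * s₁ ≤ b - a) (hk : 0 ≤ k) (hb : σ b = s₀)
    (hN : ∀ s ∈ Icc a b, 1000 * σ s ≤ s ∧ s + 1000 * σ s ≤ L ∧ s₀ ≤ σ s ∧ σ s ≤ s₁ ∧
      σ s ^ 2 * Sc g (γ s) = 1 ∧ MN v g U (γ s) (σ s) ∧
      ∀ z ∈ bl g U (γ s) (1000 * σ s), SecGe g z (-k ^ 2)) (o : Cp g U x) :
    Gs (fun u => lf o (γ (b - u))) (fun u => σ (b - u)) (b - a) s₀ s₁ k := by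
  have hx : ed g U x x ≠ ⊤ := by
    rw [ed_self (h0 ▸ minGeo_mem hγ ⟨le_rfl, hγ.nonneg⟩)]; exact ENNReal.zero_ne_top
  have ev : ∀ s ∈ Icc 0 L, (lf o (γ s)).1 = γ s := fun s hs => lf_geo o ⟨x, hx⟩ hγ h0 hs
  have sg := sg_lf o ⟨x, hx⟩ hγ h0
  have mm : ∀ u ∈ Icc 0 (b - a), b - u ∈ Icc a b := fun u hu =>
    ⟨by linarith [hu.2], by linarith [hu.1]⟩
  have mL : ∀ s ∈ Icc a b, s ∈ Icc 0 L := fun s hs => by
    obtain ⟨k1, k2, k3, -⟩ := hN s hs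
    exact ⟨by linarith, by linarith⟩
  have mb : b ∈ Icc a b := ⟨by linarith, le_rfl⟩
  have ma : a ∈ Icc a b := ⟨le_rfl, by linarith⟩
  refine ⟨hg, hH, ⟨p0, p1, p2, fun u hu => (hN _ (mm u hu)).2.2.1,
    fun u hu => (hN _ (mm u hu)).2.2.2.1, by rwa [sub_zero], fun s hs t ht => ?_,
    fun u hu q hq => ?_, fun u hu w hw huw => ?_⟩, fun p q hp hq => ?_, hk, fun u hu z hz => ?_⟩
  · rw [sg _ (mL _ (mm s hs)) _ (mL _ (mm t ht)), abs_sub_comm]; congr 1; ring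
  · obtain ⟨k1, k2, k3, -, -, ⟨⟨z, hz⟩, -⟩, -⟩ := hN _ (mm u hu)
    set s := b - u with hs
    have s0 : 0 < σ s := by linarith
    have mI : ∀ τ ∈ Icc (-(30 * σ s)) (30 * σ s), s - τ ∈ Icc 0 L := fun τ hτ =>
      ⟨by linarith [hτ.2], by linarith [hτ.1]⟩
    have ms := mL _ (mm u hu)
    have mB : ∀ τ ∈ Icc (-(30 * σ s)) (30 * σ s), γ (s - τ) ∈ bl g U (γ s) (1000 * σ s) :=
      fun τ hτ => by
        rw [← ev _ (mI τ hτ), ← ev s ms, Cp.mem_bl, sg s ms _ (mI τ hτ), sub_sub_cancel]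
        linarith [abs_le.2 hτ]
    have mq : q.1 ∈ bl g U (γ s) (1000 * σ s) := by rw [← ev s ms, Cp.mem_bl]; linarith
    have m0 : γ s ∈ bl g U (γ s) (1000 * σ s) := mem_bl_self (minGeo_mem hγ ms) (by linarith)
    obtain ⟨τ, hτ, e⟩ := cross (f := fun τ => z (γ (s - τ)) - z (γ s)) (w := z q.1 - z (γ s)) s0
      (by simp) (fun p hp p' hp' => by
        have := hz _ (mB p hp) _ (mB p' hp')
        rw [minGeo_dd hγ (mI p hp) (mI p' hp'), sub_sub_sub_cancel_left, abs_sub_comm p'] at this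
        rwa [sub_sub_sub_cancel_right]) (by
        have := (hz _ m0 _ mq).1
        rw [Cp.dist_eq, ev s ms] at hq
        rw [abs_sub_comm]; linarith)
    have e1 := (hz _ (mB τ hτ) _ mq).2
    rw [sub_left_inj.1 e, sub_self, abs_zero, mul_zero, zero_add, ← ev _ (mI τ hτ),
      ← Cp.dist_eq] at e1
    have e2 := dist_triangle_right (lf o (γ s)) (lf o (γ (s - τ))) q
    rw [sg s ms _ (mI τ hτ), sub_sub_cancel] at e2
    exact ⟨u + τ, by rw [add_sub_cancel_left]; linarith, by rwa [← sub_sub]⟩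
  · obtain ⟨-, -, k3, -, -, k4, -⟩ := hN _ (mm u hu)
    obtain ⟨-, -, j3, -, j4, -⟩ := hN _ (mm w hw)
    have := k4.sc (γ (b - w)) (by
      rw [← ev _ (mL _ (mm u hu)), ← ev _ (mL _ (mm w hw)), Cp.mem_bl,
        sg _ (mL _ (mm u hu)) _ (mL _ (mm w hw)), sub_sub_sub_cancel_left]
      linarith)
    refine ⟨le_two_mul (by linarith) (by linarith) this.2 j4.ge, ?_⟩
    exact le_two_mul (R := 4 * Sc g (γ (b - w))) (by linarith) (by linarith) (by linarith)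
      (by linarith [this.1])
  · have key : ∀ p : Cp g U x, dist (lf o (γ (b - 0))) p ≤ b - a → p.1 ∈ bl g U x (2 * R) :=
      fun p hp => by
        have e1 := dist_triangle (lf o (γ 0)) (lf o (γ b)) p
        rw [sg.dist_zero (mL b mb), h0, show lf o x = ⟨x, hx⟩ from lf_self o ⟨x, hx⟩] at e1
        rw [sub_zero] at hp
        exact (Cp.mem_bl (a := ⟨x, hx⟩)).2 (by linarith [(mL b mb).2, (mL a ma).1])
    exact exists_minGeo_two hg hH hC (by linarith [hγ.nonneg]) (key p hp) (key q hq)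
  · exact (hN _ (mm u hu)).2.2.2.2.2.2 _ (by rwa [← ev _ (mL _ (mm u hu)), Cp.mem_bl])

end Vale.Agent.P216N
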