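import Mathlib.Topology.MetricSpace.Pseudo.Defs
import Mathlib.Analysis.SpecialFunctions.Pow.Real
import Mathlib.Analysis.SpecificLimits.Basic
import Mathlib.Tactic

/-!
# Contractions towards a point are almost homotheties at small scales
-/

open Set Filter Topology

namespace Vale.Agent.P216N

variable {X : Type*} [PseudoMetricSpace X]

/-- the inner product of `a` and `b` seen from `p` -/
noncomputable def ip (p a b : X) : ℝ := (dist p a ^ 2 + dist p b ^ 2 - dist a b ^ 2) / 2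

lemma ip_comm (p a b : X) : ip p a b = ip p b a := by
  unfold ip; rw [dist_comm a b]; ring

/-- contractions towards `p` in a space of non-negative curvature and finite dimension -/
structure Contr (p : X) (H : ℝ → X → X) : Prop where
  rad : ∀ t ∈ Icc (0 : ℝ) 1, ∀ a, dist p (H t a) = t * dist p a
  cc : ∀ t ∈ Icc (0 : ℝ) 1, ∀ q b, ip p q (H t b) ≤ t * ip p q b
  pack : ∀ ε > (0 : ℝ), ∃ N : ℕ, ∀ l > (0 : ℝ), ∀ (n : ℕ) (x : Fin n → X),
    (∀ i, dist p (x i) ≤ l) → (∀ i j, i ≠ j → ε * l < dist (x i) (x j)) → n ≤ N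

variable {p : X} {H : ℝ → X → X}

lemma Contr.expand (h : Contr p H) {t : ℝ} (ht : t ∈ Icc (0 : ℝ) 1) (a b : X) :
    t * dist a b ≤ dist (H t a) (H t b) := by
  have h1 := h.cc t ht (H t a) b
  have h2 := h.cc t ht b a
  rw [ip_comm p b (H t a), ip_comm p b a] at h2
  have h3 : ip p (H t a) (H t b) ≤ t * (t * ip p a b) :=
    h1.trans (mul_le_mul_of_nonneg_left h2 ht.1)
  unfold ip at h3
  rw [h.rad t ht, h.rad t ht] at h3
  refine abs_le_of_sq_le_sq' ?_ dist_nonneg |>.2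
  nlinarith

/-- separated configurations at scale `l` -/
def Cfg (p : X) (ε l : ℝ) {n : ℕ} (x : Fin n → X) : Prop :=
  (∀ i, dist p (x i) ≤ l) ∧ ∀ i j, i ≠ j → ε * l < dist (x i) (x j)

lemma Contr.cfg (h : Contr p H) {ε l t : ℝ} {n : ℕ} {x : Fin n → X} (hx : Cfg p ε l x)
    (ht : t ∈ Ioc (0 : ℝ) 1) : Cfg p ε (t * l) fun i => H t (x i) := by
  refine ⟨fun i => ?_, fun i j hij => ?_⟩
  · rw [h.rad t ⟨ht.1.le, ht.2⟩]; exact mul_le_mul_of_nonneg_left (hx.1 i) ht.1.le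
  · have h1 := h.expand ⟨ht.1.le, ht.2⟩ (x i) (x j)
    have h2 := mul_lt_mul_of_pos_left (hx.2 i j hij) ht.1
    linarith

/-- **The contractions are almost homotheties at all small scales.** -/
theorem Contr.scale (h : Contr p H) {ε : ℝ} (hε : 0 < ε) :
    ∃ l₀ > (0 : ℝ), ∀ l ∈ Ioc 0 l₀, ∀ t ∈ Ioc (0 : ℝ) 1, ∀ a b, dist p a ≤ l → dist p b ≤ l →
      dist (H t a) (H t b) ≤ t * dist a b + 5 * ε * (t * l) := by
  classical
  obtain ⟨N, hN⟩ := h.pack ε hε
  set Q : ℕ → Prop := fun n => ∃ l > (0 : ℝ), ∃ x : Fin n → X, Cfg p ε l x with hQ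
  have hQ0 : Q 0 := ⟨1, one_pos, Fin.elim0, fun i => i.elim0, fun i => i.elim0⟩
  set n := Nat.findGreatest Q N with hn
  have hQn : Q n := Nat.findGreatest_spec (Nat.zero_le N) hQ0
  have hQs : ¬ Q (n + 1) := fun hq => by
    obtain ⟨l, hl, x, hx⟩ := hq
    exact Nat.findGreatest_is_greatest (Nat.lt_succ_self n) (hN l hl _ x hx.1 hx.2) ⟨l, hl, x, hx⟩
  set S : Set ℝ := {v | ∃ l > (0 : ℝ), ∃ x : Fin n → X, Cfg p ε l x ∧
    v = ∑ i, ∑ j, dist (x i) (x j) / l} with hS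
  have hSne : S.Nonempty := by
    obtain ⟨l, hl, x, hx⟩ := hQn
    exact ⟨_, l, hl, x, hx, rfl⟩
  have hSb : BddAbove S := by
    refine ⟨∑ _i : Fin n, ∑ _j : Fin n, (2 : ℝ), ?_⟩
    rintro _ ⟨l, hl, x, hx, rfl⟩
    refine Finset.sum_le_sum fun i _ => Finset.sum_le_sum fun j _ => ?_
    rw [div_le_iff₀ hl]
    have := dist_triangle_left (x i) (x j) p
    linarith [hx.1 i, hx.1 j]
  obtain ⟨_, ⟨l₀, hl₀, x₀, hx₀, rfl⟩, hv⟩ := exists_lt_of_lt_csSup hSne (sub_lt_self (sSup S) hε)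
  refine ⟨l₀, hl₀, fun l hl t ht a b ha hb => ?_⟩
  have hs : l / l₀ ∈ Ioc (0 : ℝ) 1 := ⟨div_pos hl.1 hl₀, (div_le_one hl₀).2 hl.2⟩
  have hx := h.cfg hx₀ hs
  rw [div_mul_cancel₀ _ hl₀.ne'] at hx
  set x : Fin n → X := fun i => H (l / l₀) (x₀ i) with hxd
  have hx' := h.cfg hx ht
  have htl : 0 < t * l := mul_pos ht.1 hl.1
  have hI : t ∈ Icc (0 : ℝ) 1 := ⟨ht.1.le, ht.2⟩
  have v1 : ∑ i, ∑ j, dist (x₀ i) (x₀ j) / l₀ ≤ ∑ i, ∑ j, dist (x i) (x j) / l := by
    refine Finset.sum_le_sum fun i _ => Finset.sum_le_sum fun j _ => ?_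
    have := h.expand ⟨hs.1.le, hs.2⟩ (x₀ i) (x₀ j)
    rw [le_div_iff₀ hl.1]
    calc _ = l / l₀ * dist (x₀ i) (x₀ j) := by ring
      _ ≤ _ := this
  have v2 : ∑ i, ∑ j, dist (H t (x i)) (H t (x j)) / (t * l) ≤ sSup S :=
    le_csSup hSb ⟨t * l, htl, _, hx', rfl⟩
  have hterm : ∀ i j, 0 ≤ dist (H t (x i)) (H t (x j)) / (t * l) - dist (x i) (x j) / l := by
    intro i j
    have := h.expand hI (x i) (x j)
    rw [sub_nonneg, le_div_iff₀ htl]
    calc _ = t * dist (x i) (x j) := by field_simp [hl.1.ne']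
      _ ≤ _ := this
  have hpair : ∀ i j, dist (H t (x i)) (H t (x j)) ≤ t * dist (x i) (x j) + ε * (t * l) := by
    intro i j
    have h1 : dist (H t (x i)) (H t (x j)) / (t * l) - dist (x i) (x j) / l ≤
        ∑ i, ∑ j, (dist (H t (x i)) (H t (x j)) / (t * l) - dist (x i) (x j) / l) :=
      (Finset.single_le_sum (fun j _ => hterm i j) (Finset.mem_univ j)).trans
        (Finset.single_le_sum (f := fun i => ∑ j, (dist (H t (x i)) (H t (x j)) / (t * l) -
          dist (x i) (x j) / l)) (fun i _ => Finset.sum_nonneg fun j _ => hterm i j)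
          (Finset.mem_univ i))
    simp only [Finset.sum_sub_distrib] at h1
    have h2 : dist (H t (x i)) (H t (x j)) / (t * l) ≤ dist (x i) (x j) / l + ε := by linarith
    rw [div_le_iff₀ htl] at h2
    calc _ ≤ _ := h2
      _ = _ := by field_simp [hl.1.ne']
  have hnear : ∀ a, dist p a ≤ l → ∃ j, dist (H t a) (H t (x j)) ≤ ε * (t * l) := by
    intro a ha
    by_contra hcon
    push Not at hcon
    refine hQs ⟨t * l, htl, Fin.cons (H t a) fun i => H t (x i), fun i => ?_, fun i j hij => ?_⟩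
    · refine Fin.cases ?_ (fun i => hx'.1 i) i
      rw [Fin.cons_zero, h.rad t hI]; exact mul_le_mul_of_nonneg_left ha ht.1.le
    · revert hij
      refine Fin.cases ?_ (fun i => ?_) i <;> refine Fin.cases ?_ (fun j => ?_) j <;> intro hij
      · exact absurd rfl hij
      · exact hcon j
      · simp only [Fin.cons_zero, Fin.cons_succ]; rw [dist_comm]; exact hcon i
      · exact hx'.2 i j fun e => hij (by rw [e])
  obtain ⟨i, hi⟩ := hnear a ha
  obtain ⟨j, hj⟩ := hnear b hb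
  have e1 := h.expand hI a (x i)
  have e2 := h.expand hI b (x j)
  have e3 := dist_triangle4 (H t a) (H t (x i)) (H t (x j)) (H t b)
  have e4 := mul_le_mul_of_nonneg_left (dist_triangle4 (x i) a b (x j)) ht.1.le
  rw [dist_comm (H t (x j))] at e3
  rw [dist_comm (x i) a] at e4
  have e5 := hpair i j
  nlinarith

/-- The inner product is almost homogeneous at all small scales. -/
theorem Contr.ip_scale (h : Contr p H) {ε : ℝ} (hε : 0 < ε) :
    ∃ l₀ > (0 : ℝ), ∀ l ∈ Ioc 0 l₀, ∀ t ∈ Ioc (0 : ℝ) 1, ∀ a b, dist p a ≤ l → dist p b ≤ l →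
      t * ip p a b - ε * l ^ 2 ≤ ip p (H t a) b := by
  obtain ⟨l₀, hl₀, H0⟩ := h.scale (ε := min ε 1 / 25) (by positivity)
  refine ⟨l₀, hl₀, fun l hl t ht a b ha hb => ?_⟩
  have hI : t ∈ Icc (0 : ℝ) 1 := ⟨ht.1.le, ht.2⟩
  have h1 := H0 l hl t ht a b ha hb
  have h2 := h.cc t hI (H t a) b
  set e := min ε 1 / 5 with he
  have he0 : 0 < e := by positivity
  have he1 : e ≤ 1 / 5 := by have := min_le_right ε 1; linarith
  have he2 : e ≤ ε / 5 := by have := min_le_left ε 1; linarith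
  have h3 : dist (H t a) (H t b) ≤ t * (dist a b + e * l) := by
    calc _ ≤ _ := h1
      _ = _ := by rw [he]; ring
  have hd : dist a b ≤ 2 * l := by have := dist_triangle_left a b p; linarith
  have hd0 : 0 ≤ dist a b := dist_nonneg
  have h4 : dist (H t a) (H t b) ^ 2 ≤ (t * (dist a b + e * l)) ^ 2 :=
    pow_le_pow_left₀ dist_nonneg h3 2
  have h5 : (dist a b + e * l) ^ 2 ≤ dist a b ^ 2 + 5 * e * l ^ 2 := by
    have : e * l * dist a b ≤ e * l * (2 * l) :=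
      mul_le_mul_of_nonneg_left hd (mul_pos he0 hl.1).le
    have h6 : e * e * l ^ 2 ≤ e * l ^ 2 := by
      have : e * e ≤ e := by nlinarith
      exact mul_le_mul_of_nonneg_right this (sq_nonneg l)
    nlinarith
  have h6 : t * (t * ip p a b - t * (5 * e * l ^ 2 / 2)) ≤ ip p (H t a) (H t b) := by
    unfold ip
    rw [h.rad t hI, h.rad t hI]
    have := mul_le_mul_of_nonneg_left h5 (sq_nonneg t)
    nlinarith
  have h7 := le_of_mul_le_mul_left (h6.trans h2) ht.1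
  have h8 : t * (5 * e * l ^ 2 / 2) ≤ ε * l ^ 2 := by
    have : t * (5 * e / 2) ≤ ε := by nlinarith [ht.1, ht.2]
    nlinarith [sq_nonneg l]
  linarith

/-- The two triangle inequalities that force Stewart's formula. -/
def MidIneq (A B M x y z t e s : ℝ) : Prop :=
  z ≤ √(A ^ 2 + t ^ 2 * M ^ 2 - t * (A ^ 2 + M ^ 2 - x ^ 2) + e) +
      √(B ^ 2 + t ^ 2 * M ^ 2 - t * (B ^ 2 + M ^ 2 - y ^ 2) + e) + s ∧
  t * z ≤ √(t ^ 2 * A ^ 2 + M ^ 2 - t * (A ^ 2 + M ^ 2 - x ^ 2) + e) +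
      √(t ^ 2 * B ^ 2 + M ^ 2 - t * (B ^ 2 + M ^ 2 - y ^ 2) + e) + s

theorem Contr.mid (h : Contr p H) {ε : ℝ} (hε : 0 < ε) :
    ∃ l₀ > (0 : ℝ), ∀ l ∈ Ioc 0 l₀, ∀ t ∈ Ioc (0 : ℝ) 1, ∀ a b m, dist p a ≤ l → dist p b ≤ l →
      dist p m ≤ l → MidIneq (dist p a) (dist p b) (dist p m) (dist a m) (dist b m) (dist a b) t
        (ε * l ^ 2) 0 := by
  obtain ⟨l₀, hl₀, H0⟩ := h.ip_scale (ε := ε / 2) (by positivity)
  refine ⟨l₀, hl₀, fun l hl t ht a b m ha hb hm => ?_⟩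
  have hI : t ∈ Icc (0 : ℝ) 1 := ⟨ht.1.le, ht.2⟩
  have key : ∀ a b, dist p a ≤ l → dist p b ≤ l → dist (H t a) b ≤
      √(t ^ 2 * dist p a ^ 2 + dist p b ^ 2 - t * (dist p a ^ 2 + dist p b ^ 2 - dist a b ^ 2) +
        ε * l ^ 2) := by
    intro a b ha hb
    have := H0 l hl t ht a b ha hb
    unfold ip at this
    rw [h.rad t hI] at this
    exact Real.le_sqrt_of_sq_le (by nlinarith)
  constructor
  · have h1 := key m a hm ha
    have h2 := key m b hm hb
    have h3 := dist_triangle_left a b (H t m)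
    rw [dist_comm m a] at h1
    rw [dist_comm m b] at h2
    refine h3.trans ?_
    rw [add_zero]
    refine add_le_add (h1.trans_eq ?_) (h2.trans_eq ?_) <;> congr 1 <;> ring
  · have h1 := key a m ha hm
    have h2 := key b m hb hm
    have h3 := dist_triangle_right (H t a) (H t b) m
    have h4 := h.expand hI a b
    linarith

lemma sqrt_le_lin {x w : ℝ} (hx : 0 < x) (hw : -x ^ 2 ≤ w) : √(x ^ 2 + w) ≤ x + w / (2 * x) := by
  have h1 : 0 ≤ x + w / (2 * x) := by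
    have : -x / 2 ≤ w / (2 * x) := by rw [le_div_iff₀ (by positivity)]; nlinarith
    linarith
  refine Real.sqrt_le_iff.2 ⟨h1, ?_⟩
  have : (x + w / (2 * x)) ^ 2 = x ^ 2 + w + (w / (2 * x)) ^ 2 := by field_simp; ring
  rw [this]; nlinarith [sq_nonneg (w / (2 * x))]

lemma stewart_aux {x y a b c d z : ℝ} (hx : 0 < x) (hy : 0 < y) {τ : ℕ → ℝ} (h0 : ∀ n, 0 < τ n)
    (hτ : Tendsto τ atTop (𝓝 0))
    (h : ∀ n, x + y - τ n * z ≤ √(x ^ 2 + τ n * (a + τ n * c)) + √(y ^ 2 + τ n * (b + τ n * d))) :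
    -z ≤ a / (2 * x) + b / (2 * y) := by
  have t1 : Tendsto (fun n => τ n * (a + τ n * c)) atTop (𝓝 (0 * (a + 0 * c))) :=
    hτ.mul (tendsto_const_nhds.add (hτ.mul_const c))
  have t2 : Tendsto (fun n => τ n * (b + τ n * d)) atTop (𝓝 (0 * (b + 0 * d))) :=
    hτ.mul (tendsto_const_nhds.add (hτ.mul_const d))
  rw [zero_mul] at t1 t2
  have t3 : Tendsto (fun n => (a + τ n * c) / (2 * x) + (b + τ n * d) / (2 * y)) atTop
      (𝓝 ((a + 0 * c) / (2 * x) + (b + 0 * d) / (2 * y))) :=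
    ((tendsto_const_nhds.add (hτ.mul_const c)).div_const _).add
      ((tendsto_const_nhds.add (hτ.mul_const d)).div_const _)
  simp only [zero_mul, add_zero] at t3
  refine ge_of_tendsto t3 ?_
  filter_upwards [t1.eventually (lt_mem_nhds (show -x ^ 2 < 0 by nlinarith)),
    t2.eventually (lt_mem_nhds (show -y ^ 2 < 0 by nlinarith))] with n h1 h2
  have h3 := sqrt_le_lin hx h1.le
  have h4 := sqrt_le_lin hy h2.le
  have h5 : τ n * -z ≤ τ n * ((a + τ n * c) / (2 * x) + (b + τ n * d) / (2 * y)) := by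
    have := h n
    rw [mul_div_assoc] at h3 h4
    linarith
  exact le_of_mul_le_mul_left h5 (h0 n)

/-- **Stewart's formula** from the two triangle inequalities. -/
theorem stewart {A B M x y : ℝ} (hx : 0 < x) (hy : 0 < y) {τ : ℕ → ℝ} (h0 : ∀ n, 0 < τ n)
    (hτ : Tendsto τ atTop (𝓝 0)) (h : ∀ n, MidIneq A B M x y (x + y) (1 - τ n) 0 0) :
    M ^ 2 * (x + y) = y * A ^ 2 + x * B ^ 2 - x * y * (x + y) := by
  have h1 := stewart_aux (a := A ^ 2 - M ^ 2 - x ^ 2) (b := B ^ 2 - M ^ 2 - y ^ 2) (c := M ^ 2)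
    (d := M ^ 2) (z := 0) hx hy h0 hτ fun n => by
      have := (h n).1
      rw [mul_zero, sub_zero]
      refine this.trans_eq ?_
      rw [add_zero]; congr 2 <;> ring
  have h2 := stewart_aux (a := M ^ 2 - A ^ 2 - x ^ 2) (b := M ^ 2 - B ^ 2 - y ^ 2) (c := A ^ 2)
    (d := B ^ 2) (z := x + y) hx hy h0 hτ fun n => by
      have := (h n).2
      calc _ = (1 - τ n) * (x + y) := by ring
        _ ≤ _ := this
        _ = _ := by rw [add_zero]; congr 2 <;> ring
  rw [div_add_div _ _ (by positivity) (by positivity), le_div_iff₀ (by positivity)] at h1 h2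
  nlinarith

end Vale.Agent.P216N
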