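import Mathlib.Topology.MetricSpace.IsometricSMul
import Mathlib.Topology.MetricSpace.Pseudo.Defs
import Mathlib.Tactic

/-!
# Four point hyperbolicity: chains and orbits of isometries
-/

namespace Vale.Agent.P216N

variable {X : Type*} [PseudoMetricSpace X]

/-- The excess of the triangle inequality at `w` (twice the Gromov product). -/
def ex (x w y : X) : ℝ := dist x w + dist w y - dist x y

/-- The four point condition. -/
def Hyp4 (X : Type*) [PseudoMetricSpace X] (δ : ℝ) : Prop :=
  ∀ x y z w : X, dist x y + dist z w ≤ dist x z + dist y w + δ ∨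
    dist x y + dist z w ≤ dist x w + dist y z + δ

lemma ex_nonneg (x w y : X) : 0 ≤ ex x w y := by
  have := dist_triangle x w y
  unfold ex; linarith

lemma ex_comm (x w y : X) : ex x w y = ex y w x := by
  unfold ex; rw [dist_comm x w, dist_comm w y, dist_comm x y]; ring

lemma ex_swap (x w y : X) : ex x w y = 2 * dist w y - ex x y w := by
  unfold ex; rw [dist_comm y w]; ring

lemma ex_le (x w y : X) : ex x w y ≤ 2 * dist w y := by
  rw [ex_swap]; have := ex_nonneg x y w; linarith

lemma ex_self (x w : X) : ex x w w = 0 := by simp [ex]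

lemma ex_move (x w y x' w' y' : X) :
    ex x w y ≤ ex x' w' y' + 2 * dist x x' + 2 * dist w w' + 2 * dist y y' := by
  have h1 := dist_triangle4 x x' w' w
  have h2 := dist_triangle4 w w' y' y
  have h3 := dist_triangle4 x' x y y'
  rw [dist_comm w' w] at h1
  rw [dist_comm y' y] at h2
  rw [dist_comm x' x] at h3
  unfold ex; linarith

lemma Hyp4.ex {δ : ℝ} (H : Hyp4 X δ) (x w y z : X) :
    ex x w z ≤ ex x w y + δ ∨ ex z w y ≤ ex x w y + δ := by
  unfold P216N.ex
  rcases H x y z w with h | h
  · left; rw [dist_comm w z, dist_comm w y]; linarith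
  · right; rw [dist_comm y z] at h; linarith

lemma Hyp4.nonneg {δ : ℝ} (H : Hyp4 X δ) (x : X) : 0 ≤ δ := by
  rcases H x x x x with h | h <;> simpa using h

/-- If one of the two alternatives is too big, the other one holds. -/
lemma Hyp4.ex_of {δ : ℝ} (H : Hyp4 X δ) {x w y z : X} (h : P216N.ex x w y + δ < P216N.ex z w y) :
    P216N.ex x w z ≤ P216N.ex x w y + δ := by
  rcases H.ex x w y z with h' | h'
  · exact h'
  · linarith

/-- Two steps of the four point condition. -/
lemma Hyp4.ex_three {δ : ℝ} (H : Hyp4 X δ) {x w y u v : X} {T : ℝ} (h1 : T ≤ P216N.ex x w u)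
    (h2 : T ≤ P216N.ex u w v) (h3 : T ≤ P216N.ex v w y) : T ≤ P216N.ex x w y + 2 * δ := by
  have h0 := H.nonneg x
  rcases H.ex x w y u with h | h
  · linarith
  · rcases H.ex u w y v with h' | h' <;> linarith

/-- The chain lemma, one sided form. -/
lemma Hyp4.chain {δ E : ℝ} (H : Hyp4 X δ) (p : ℕ → X)
    (hE : ∀ i, P216N.ex (p i) (p (i + 1)) (p (i + 2)) ≤ E)
    (hL : ∀ i, E + δ < dist (p i) (p (i + 1))) (i : ℕ) :
    P216N.ex (p 0) (p i) (p (i + 1)) ≤ E + δ := by
  have h0 := H.nonneg (p 0)
  induction i with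
  | zero =>
    have := ex_nonneg (p 0) (p 1) (p 2)
    have h2 := hE 0
    rw [ex_comm, ex_self]
    simp only [zero_add] at h2
    linarith
  | succ i ih =>
    have h1 := ex_swap (p 0) (p i) (p (i + 1))
    have h2 := hE i
    have h3 := hL i
    rcases H.ex (p i) (p (i + 1)) (p (i + 2)) (p 0) with h | h
    · rw [ex_comm] at h; linarith
    · linarith

section Orbit

variable {G : Type*} [Group G] [MulAction G X] [IsIsometricSMul G X]

lemma ex_smul (g : G) (x w y : X) : ex (g • x) (g • w) (g • y) = ex x w y := by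
  simp [ex]

lemma dist_inv_smul (g : G) (x : X) : dist x (g⁻¹ • x) = dist x (g • x) := by
  rw [← dist_smul g x, smul_inv_smul, dist_comm]

lemma dist_mul_smul_le (g h : G) (x : X) :
    dist x ((g * h) • x) ≤ dist x (g • x) + dist x (h • x) := by
  have := dist_triangle x (g • x) ((g * h) • x)
  rwa [mul_smul, dist_smul, ← mul_smul] at this

lemma dist_pow_smul_le (g : G) (x : X) (n : ℕ) : dist x (g ^ n • x) ≤ n * dist x (g • x) := by
  induction n with
  | zero => simp
  | succ n ih =>
    have := dist_mul_smul_le (g ^ n) g x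
    rw [pow_succ]; push_cast; linarith

/-- `h` moves `x` along a chain whose turning excess is at most `E`. -/
def Straight (h : G) (x : X) (E : ℝ) : Prop :=
  ∀ m n : ℕ, ex (h⁻¹ ^ m • x) x (h ^ n • x) ≤ E

omit [IsIsometricSMul G X] in
lemma Straight.inv {h : G} {x : X} {E : ℝ} (H : Straight h x E) : Straight h⁻¹ x E := by
  intro m n
  rw [inv_inv, ex_comm]; exact H n m

lemma Straight.ex_mid {h : G} {x : X} {E : ℝ} (H : Straight h x E) {i n : ℕ} (hi : i ≤ n) :
    ex x (h ^ i • x) (h ^ n • x) ≤ E := by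
  obtain ⟨k, rfl⟩ := Nat.exists_eq_add_of_le hi
  have := H i k
  rw [← ex_smul (h ^ i), ← mul_smul, ← mul_smul, inv_pow, mul_inv_cancel, one_smul,
    ← pow_add] at this
  exact this

lemma Straight.growth {h : G} {x : X} {E : ℝ} (H : Straight h x E) (n : ℕ) :
    n * (dist x (h • x) - E) ≤ dist x (h ^ n • x) := by
  induction n with
  | zero => simp
  | succ n ih =>
    have h1 := H.ex_mid (Nat.le_succ n)
    have h2 : dist (h ^ n • x) (h ^ (n + 1) • x) = dist x (h • x) := by
      rw [pow_succ, mul_smul, dist_smul]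
    unfold ex at h1
    simp only [Nat.succ_eq_add_one] at h1
    push_cast; linarith

lemma Straight.conj {h : G} {x : X} {E : ℝ} (H : Straight h x E) (s : G) :
    Straight (s⁻¹ * h * s) x (E + 6 * dist x (s • x)) := by
  intro m n
  have e1 : (s⁻¹ * h * s) ^ n = s⁻¹ * h ^ n * s := by
    simpa using conj_pow (a := s⁻¹) (b := h) (i := n)
  have e2 : (s⁻¹ * h * s)⁻¹ ^ m = s⁻¹ * h⁻¹ ^ m * s := by
    have : (s⁻¹ * h * s)⁻¹ = s⁻¹ * h⁻¹ * s := by group
    rw [this]; simpa using conj_pow (a := s⁻¹) (b := h⁻¹) (i := m)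
  rw [e1, e2, ← ex_smul s]
  simp only [mul_smul, smul_inv_smul]
  have := ex_move (h⁻¹ ^ m • s • x) (s • x) (h ^ n • s • x) (h⁻¹ ^ m • x) x (h ^ n • x)
  rw [dist_smul, dist_smul, dist_comm (s • x) x] at this
  have := H m n
  linarith

/-- An isometry whose square moves `x` much further than itself is straight. -/
lemma Hyp4.straight {δ E : ℝ} (H : Hyp4 X δ) {h : G} {x : X}
    (hE : P216N.ex (h⁻¹ • x) x (h • x) ≤ E) (hL : E + 2 * δ < dist x (h • x)) :
    Straight h x (E + 2 * δ) := by
  have h0 := H.nonneg x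
  have key : ∀ g : G, P216N.ex (g⁻¹ • x) x (g • x) ≤ E → E + δ < dist x (g • x) →
      ∀ m : ℕ, P216N.ex (g⁻¹ ^ m • x) x (g • x) ≤ E + δ := by
    intro g h1 h2 m
    have := H.chain (E := E) (fun i => g ^ i • x) (fun i => by
      have e : P216N.ex (g ^ i • x) (g ^ (i + 1) • x) (g ^ (i + 2) • x)
          = P216N.ex (g⁻¹ • x) x (g • x) := by
        rw [← ex_smul (g ^ (i + 1)) (g⁻¹ • x), ← mul_smul, ← mul_smul, ← pow_succ]
        congr 2; rw [pow_succ]; group
      rw [e]; exact h1) (fun i => by rw [pow_succ, mul_smul, dist_smul]; exact h2) m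
    simp only [pow_zero, one_smul] at this
    rw [← ex_smul (g ^ m), ← mul_smul, ← mul_smul, inv_pow, mul_inv_cancel, one_smul,
      ← pow_succ]
    exact this
  intro m n
  rcases n with _ | n
  · have := ex_nonneg (h⁻¹ • x) x (h • x)
    rw [pow_zero, one_smul, ex_self]; linarith
  · have h1 := key h hE (by linarith) m
    have h2 := key h⁻¹ (by rw [inv_inv, ex_comm]; exact hE) (by rw [dist_inv_smul]; linarith) n
    rw [inv_inv, ← ex_smul h, ← mul_smul, smul_inv_smul, ← pow_succ'] at h2
    have h3 := ex_swap (h ^ (n + 1) • x) x (h • x)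
    rcases H.ex (h⁻¹ ^ m • x) x (h • x) (h ^ (n + 1) • x) with h4 | h4 <;> linarith

end Orbit

end Vale.Agent.P216N
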