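import Vale.Agent.P216N.NotCC

/-!
# N1: a cyclically covered CSA group acting geometrically on a hyperbolic space is abelian
-/

namespace Vale.Agent.P216N

variable {X : Type*} [PseudoMetricSpace X]
variable {G : Type*} [Group G] [MulAction G X] [IsIsometricSMul G X]

/-- Two straight elements whose orbits have unbounded Gromov products have a common power. -/
lemma Geom.common {x : X} {δ D : ℝ} (H : Geom G x δ D) {A B : G} {E : ℝ} (hA : Straight A x E)
    (hB : Straight B x E) (hu : ∀ K : ℝ, ∃ n : ℕ, K < ex (B ^ n • x) x (A ^ n • x)) :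
    ∃ i i' j j' : ℕ, i < i' ∧ (A ^ i)⁻¹ * B ^ j = (A ^ i')⁻¹ * B ^ j' := by
  classical
  have h0 := H.hyp.nonneg x
  have h1 : ∀ i : ℕ, ∃ j : ℕ,
      dist x (((A ^ i)⁻¹ * B ^ j) • x) ≤ dist x (B • x) + E + 2 * δ := by
    intro i
    set r := dist x (A ^ i • x) with hr
    have hr0 : 0 ≤ r := dist_nonneg
    obtain ⟨n, hn⟩ := hu (2 * r + 2 * (i * dist x (A • x)))
    have hin : i ≤ n := by
      by_contra hlt
      have h2 := ex_le (B ^ n • x) x (A ^ n • x)
      have h3 := dist_pow_smul_le A x n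
      have h4 : (n : ℝ) * dist x (A • x) ≤ i * dist x (A • x) :=
        mul_le_mul_of_nonneg_right (by exact_mod_cast (by omega : n ≤ i)) dist_nonneg
      linarith
    have hi0 : 0 ≤ (i : ℝ) * dist x (A • x) := by positivity
    have hBn : r ≤ dist x (B ^ n • x) := by
      have h2 := ex_le (A ^ n • x) x (B ^ n • x)
      rw [ex_comm] at h2
      linarith
    have hex : ∃ j : ℕ, r ≤ dist x (B ^ j • x) := ⟨n, hBn⟩
    have hj1 : r ≤ dist x (B ^ Nat.find hex • x) := Nat.find_spec hex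
    have hjn : Nat.find hex ≤ n := Nat.find_min' hex hBn
    have hj2 : dist x (B ^ Nat.find hex • x) ≤ r + dist x (B • x) := by
      rcases hz : Nat.find hex with _ | j
      · simp only [pow_zero, one_smul, dist_self]; positivity
      · have h2 := Nat.find_min hex (m := j) (by omega)
        have h3 := dist_mul_smul_le (B ^ j) B x
        rw [pow_succ]
        push Not at h2
        linarith
    refine ⟨Nat.find hex, ?_⟩
    set j := Nat.find hex
    have hE0 : 0 ≤ E := (ex_nonneg _ _ _).trans (hA 0 0)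
    have a1 := hA.ex_mid hin
    have a2 := hB.ex_mid hjn
    have a3 := ex_swap (A ^ n • x) x (A ^ i • x)
    have a4 := ex_swap (B ^ n • x) x (B ^ j • x)
    rw [ex_comm (A ^ n • x) (A ^ i • x) x, ex_comm] at a3
    rw [ex_comm (B ^ n • x) (B ^ j • x) x] at a4
    have a5 := H.hyp.ex_three (x := A ^ i • x) (w := x) (y := B ^ j • x) (u := A ^ n • x)
      (v := B ^ n • x) (T := 2 * r - E) (by linarith) (by rw [ex_comm]; linarith) (by linarith)
    rw [← dist_smul (A ^ i), mul_smul, smul_inv_smul]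
    unfold ex at a5
    rw [dist_comm (A ^ i • x) x] at a5
    linarith
  choose j hj using h1
  obtain ⟨i, i', hlt, h⟩ := Set.Finite.exists_lt_map_eq_of_forall_mem
    (f := fun i : ℕ => (A ^ i)⁻¹ * B ^ j i) (fun i => hj i) (H.fin _)
  exact ⟨i, i', j i, j i', hlt, h⟩

/-- If `a` and `s` do not commute, the elements `A ^ n * s` turn by a bounded amount. -/
lemma Geom.bounded {x : X} {δ D : ℝ} (H : Geom G x δ D) (hG : CSA G) {A s : G} {E : ℝ}
    (hA1 : A ≠ 1) (hA : Straight A x E) (hs : ¬ Commute A s) :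
    ∃ K : ℝ, ∀ n : ℕ, ex ((A ^ n * s)⁻¹ • x) x ((A ^ n * s) • x) ≤ K := by
  have hb : ∃ K : ℝ, ∀ n : ℕ, ex ((s⁻¹ * A⁻¹ * s) ^ n • x) x (A ^ n • x) ≤ K := by
    by_contra hcon
    push Not at hcon
    have hd : 0 ≤ dist x (s • x) := dist_nonneg
    obtain ⟨i, i', j, j', hlt, h⟩ := H.common (E := E + 6 * dist x (s • x))
      (fun m n => (hA m n).trans (by linarith)) (hA.inv.conj s) hcon
    set B := s⁻¹ * A⁻¹ * s with hB
    obtain ⟨k, rfl⟩ := Nat.exists_eq_add_of_lt hlt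
    have e : A ^ (k + 1) = B ^ j' * (B ^ j)⁻¹ := by
      have h2 : A ^ (i + k + 1) * (A ^ i)⁻¹ = B ^ j' * (B ^ j)⁻¹ := by
        calc _ = A ^ (i + k + 1) * ((A ^ i)⁻¹ * B ^ j) * (B ^ j)⁻¹ := by group
          _ = _ := by rw [h]; group
      rw [← h2]; group
    have c1 : Commute (A ^ (k + 1)) B := by
      rw [e]
      exact ((Commute.refl B).pow_left j').mul_left ((Commute.refl B).pow_left j).inv_left
    have c2 : Commute A B := hG.ct _ _ _ (hG.pow_ne hA1 (Nat.succ_pos k))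
      ((Commute.refl A).pow_left _) c1
    have c3 : Commute A (s⁻¹ * A * s⁻¹⁻¹) := by
      have : s⁻¹ * A * s⁻¹⁻¹ = B⁻¹ := by rw [hB]; group
      rw [this]; exact c2.inv_right
    exact hs (by simpa using (hG.mal A s⁻¹ hA1 c3).inv_right)
  obtain ⟨K, hK⟩ := hb
  refine ⟨K + 4 * dist x (s • x), fun n => ?_⟩
  have h1 := hK n
  have e1 : (s⁻¹ * A⁻¹ * s) ^ n = (A ^ n * s)⁻¹ * s := by
    have : (s⁻¹ * A⁻¹ * s) ^ n = s⁻¹ * A⁻¹ ^ n * s := by
      simpa using conj_pow (a := s⁻¹) (b := A⁻¹) (i := n)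
    rw [this]; group
  have h2 := ex_move ((A ^ n * s)⁻¹ • x) x ((A ^ n * s) • x) ((s⁻¹ * A⁻¹ * s) ^ n • x) x
    (A ^ n • x)
  have h3 : dist ((A ^ n * s)⁻¹ • x) ((s⁻¹ * A⁻¹ * s) ^ n • x) = dist x (s • x) := by
    rw [e1, mul_smul _ s, dist_smul]
  have h4 : dist ((A ^ n * s) • x) (A ^ n • x) = dist x (s • x) := by
    rw [mul_smul, dist_smul, dist_comm]
  rw [h3, h4, dist_self] at h2
  linarith

/-- A straight element `h` that is conjugate to a power of `c` is so by a short conjugator. -/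
lemma Geom.short {x : X} {δ D : ℝ} (H : Geom G x δ D) (hG : CSA G) (c : G) (K : ℝ) :
    ∃ R : ℝ, ∀ h : G, Straight h x K → R < dist x (h • x) → ∀ k : ℤ, IsConj h (c ^ k) →
      ∃ g : G, dist x (g • x) ≤ R ∧ h = g * c ^ k * g⁻¹ := by
  have hlow : ∀ h : G, Straight h x K → ∀ g z : G, h = g * z * g⁻¹ →
      dist x (h • x) - K ≤ dist x (z • x) := by
    intro h hS g z hz
    by_contra hcon
    push Not at hcon
    obtain ⟨n, hn⟩ := exists_nat_gt
      (2 * dist x (g • x) / (dist x (h • x) - K - dist x (z • x)))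
    rw [div_lt_iff₀ (by linarith)] at hn
    have h1 := hS.growth n
    have h2 : h ^ n = g * z ^ n * g⁻¹ := by rw [hz]; exact conj_pow
    have h3 := dist_mul_smul_le (g * z ^ n) g⁻¹ x
    have h4 := dist_mul_smul_le g (z ^ n) x
    have h5 := dist_pow_smul_le z x n
    rw [dist_inv_smul, ← h2] at h3
    nlinarith
  by_cases hc : c = 1
  · refine ⟨0, fun h _ hR k hk => ?_⟩
    rw [hc, one_zpow, isConj_one_left] at hk
    simp [hk] at hR
  obtain ⟨N, F, hF⟩ := H.far hG hc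
  refine ⟨|F + K|, fun h hS hR k hk => ?_⟩
  obtain ⟨g0, hg0⟩ := isConj_iff.1 hk.symm
  have hfin : ({g : G | dist x (g • x) ≤ dist x (g0 • x)} ∩ {g | h = g * c ^ k * g⁻¹}).Finite :=
    (H.fin _).inter_of_left _
  obtain ⟨g, ⟨hg1, hg2⟩, hmin⟩ := hfin.exists_minimalFor (fun g : G => dist x (g • x)) _
    ⟨g0, le_refl (dist x (g0 • x)), hg0.symm⟩
  have hmin' : ∀ z : G, Commute z c → dist (g⁻¹ • x) x ≤ dist (g⁻¹ • x) (z • x) := by
    intro z hz
    rw [← dist_smul g, ← dist_smul g (g⁻¹ • x) (z • x), smul_inv_smul, ← mul_smul]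
    by_contra hlt
    push Not at hlt
    have hm : h = g * z * c ^ k * (g * z)⁻¹ := by
      rw [show h = g * c ^ k * g⁻¹ from hg2, mul_assoc g z, (hz.zpow_right k).eq]; group
    have := hmin (j := g * z) ⟨le_trans hlt.le hg1, hm⟩ hlt.le
    linarith
  have h1 := hlow h hS g _ hg2
  have h2 := le_abs_self (F + K)
  have h3 := hF (g⁻¹ • x) (hmin' _ ((Commute.refl c).pow_left N))
    (hmin' _ ((Commute.refl c).pow_left N).inv_left) k (by linarith)
  have h4 : dist (g⁻¹ • x) (c ^ k • g⁻¹ • x) = dist x (h • x) := by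
    rw [← dist_smul g, smul_inv_smul, show h = g * c ^ k * g⁻¹ from hg2, mul_smul, mul_smul]
  have h5 : dist (g⁻¹ • x) x = dist x (g • x) := by rw [dist_comm, dist_inv_smul]
  have h6 : 0 ≤ dist x (g • x) := dist_nonneg
  exact ⟨g, by linarith, hg2⟩

/-- **N1.** A CSA group that acts geometrically on a hyperbolic space and is the union of the
conjugates of finitely many cyclic subgroups is abelian. -/
theorem Geom.commute {x : X} {δ D : ℝ} (H : Geom G x δ D) (hG : CSA G) {F : Set G}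
    (hF : F.Finite) (hcov : ∀ g : G, ∃ c ∈ F, ∃ k : ℤ, IsConj g (c ^ k)) (a s : G) :
    Commute a s := by
  by_cases ha : a = 1
  · rw [ha]; exact Commute.one_left s
  obtain ⟨N, E, hN, hS, hE⟩ := H.exists_straight hG ha
  have h0 := H.hyp.nonneg x
  set A := a ^ N with hA
  have hA1 : A ≠ 1 := hG.pow_ne ha hN
  suffices h : Commute A s from hG.ct A a s hA1 ((Commute.refl a).pow_left N) h
  by_contra hs
  obtain ⟨K, hK⟩ := H.bounded hG hA1 hS hs
  choose R hR using fun c : G => H.short hG c (K + 2 * δ)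
  obtain ⟨R0, hR0⟩ := (hF.image R).bddAbove
  obtain ⟨n0, hn0⟩ := exists_nat_gt (max R0 (K + 2 * δ) + dist x (s • x))
  have hbig : ∀ n : ℕ, max R0 (K + 2 * δ) < dist x ((A ^ (n0 + n) * s) • x) := by
    intro n
    have h1 := hS.growth (n0 + n)
    have h2 := dist_mul_smul_le (A ^ (n0 + n) * s) s⁻¹ x
    rw [mul_inv_cancel_right, dist_inv_smul] at h2
    have h3 : ((n0 + n : ℕ) : ℝ) * 1 ≤ ((n0 + n : ℕ) : ℝ) * (dist x (A • x) - E) :=
      mul_le_mul_of_nonneg_left (by linarith) (by positivity)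
    have h4 : (0 : ℝ) ≤ n := by positivity
    push_cast at h1 h3
    linarith
  have h1 : ∀ n : ℕ, ∃ p : G × G, p ∈ F ×ˢ {g : G | dist x (g • x) ≤ R0} ∧
      ∃ k : ℤ, A ^ (n0 + n) * s = p.2 * p.1 ^ k * p.2⁻¹ := by
    intro n
    obtain ⟨c, hc, k, hk⟩ := hcov (A ^ (n0 + n) * s)
    have hRc : R c ≤ R0 := hR0 ⟨c, hc, rfl⟩
    obtain ⟨g, hg1, hg2⟩ := hR c _
      (H.hyp.straight (hK _) ((le_max_right _ _).trans_lt (hbig n)))
      (hRc.trans_lt ((le_max_left _ _).trans_lt (hbig n))) k hk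
    exact ⟨(c, g), ⟨hc, hg1.trans hRc⟩, k, hg2⟩
  choose p hp k hk using h1
  obtain ⟨m, n, hmn, h⟩ := Set.Finite.exists_lt_map_eq_of_forall_mem hp (hF.prod (H.fin R0))
  have c1 : Commute (A ^ (n0 + m) * s) (A ^ (n0 + n) * s) := by
    rw [hk m, hk n, h]
    exact ((Commute.refl (p n).1).zpow_zpow _ _).conj _
  obtain ⟨j, rfl⟩ := Nat.exists_eq_add_of_lt hmn
  have e : A ^ (j + 1) = A ^ (n0 + (m + j + 1)) * s * (A ^ (n0 + m) * s)⁻¹ := by group
  have c2 : Commute (A ^ (j + 1)) (A ^ (n0 + m) * s) := by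
    rw [e]; exact c1.symm.mul_left (Commute.refl _).inv_left
  have c3 : Commute (A ^ (j + 1)) s := by
    have := ((Commute.refl A).pow_pow (j + 1) (n0 + m)).inv_right.mul_right c2
    simpa using this
  exact hs (hG.ct _ _ _ (hG.pow_ne hA1 (Nat.succ_pos j)) ((Commute.refl A).pow_left _) c3)

end Vale.Agent.P216N
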