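import Vale.Agent.P216N.Hyp
import Mathlib.Algebra.Group.Conj
import Mathlib.Order.Filter.AtTopBot.Archimedean
import Mathlib.Data.Set.Finite.Lemmas

/-!
# A cocompact group of isometries of a hyperbolic space is not cyclically covered
-/

namespace Vale.Agent.P216N

variable {X : Type*} [PseudoMetricSpace X]
variable {G : Type*} [Group G] [MulAction G X] [IsIsometricSMul G X]

/-- The action of `G` on `X` is geometric, `X` is hyperbolic and has coarse midpoints. -/
structure Geom (G : Type*) [Group G] {X : Type*} [PseudoMetricSpace X] [MulAction G X] (x : X)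
    (δ D : ℝ) : Prop where
  hyp : Hyp4 X δ
  fin : ∀ R : ℝ, {g : G | dist x (g • x) ≤ R}.Finite
  cob : ∀ y : X, ∃ g : G, dist y (g • x) ≤ D
  mid : ∀ y z : X, ∃ m : X, dist y m ≤ dist y z / 2 + D ∧ dist m z ≤ dist y z / 2 + D

/-- Torsion free, commutation transitive, and maximal abelian subgroups are malnormal. -/
structure CSA (G : Type*) [Group G] : Prop where
  tf : ∀ (x : G) (n : ℕ), 0 < n → x ^ n = 1 → x = 1
  ct : ∀ x y z : G, x ≠ 1 → Commute x y → Commute x z → Commute y z
  mal : ∀ x g : G, x ≠ 1 → Commute x (g * x * g⁻¹) → Commute x g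

lemma CSA.pow_inj (hG : CSA G) {c : G} (hc : c ≠ 1) {m n : ℕ} (h : c ^ m = c ^ n) : m = n := by
  by_contra hne
  wlog hlt : m < n generalizing m n
  · exact this h.symm (Ne.symm hne) (by omega)
  obtain ⟨k, rfl⟩ := Nat.exists_eq_add_of_lt hlt
  rw [add_assoc, pow_add] at h
  exact hc (hG.tf c (k + 1) (by omega) (by simpa using h.symm))

lemma CSA.pow_ne (hG : CSA G) {c : G} (hc : c ≠ 1) {n : ℕ} (hn : 0 < n) : c ^ n ≠ 1 :=
  fun h => hc (hG.tf c n hn h)

lemma CSA.conj_pow (hG : CSA G) {c : G} (hc : c ≠ 1) {m n : ℕ} (hm : 0 < m) {g : G}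
    (h : g * c ^ m * g⁻¹ = c ^ n) : m = n := by
  have h1 : Commute (c ^ m) g :=
    hG.mal _ g (hG.pow_ne hc hm) (by rw [h]; exact Commute.pow_pow_self c m n)
  rw [← h1.eq, mul_inv_cancel_right] at h
  exact hG.pow_inj hc h

/-- Some power of a non-trivial element moves every point by more than `M`. -/
lemma Geom.exists_disp {x : X} {δ D : ℝ} (H : Geom G x δ D) (hG : CSA G) {c : G} (hc : c ≠ 1)
    (M : ℝ) : ∃ n : ℕ, 0 < n ∧ ∀ y : X, M < dist y (c ^ n • y) := by
  by_contra hcon
  push Not at hcon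
  have h1 : ∀ n : ℕ, ∃ g : G, dist x ((g⁻¹ * c ^ (n + 1) * g) • x) ≤ M + 2 * D := by
    intro n
    obtain ⟨y, hy⟩ := hcon (n + 1) (by omega)
    obtain ⟨g, hg⟩ := H.cob y
    refine ⟨g, ?_⟩
    rw [← dist_smul g, mul_assoc, mul_smul, smul_inv_smul, mul_smul]
    have := dist_triangle4 (g • x) y (c ^ (n + 1) • y) (c ^ (n + 1) • g • x)
    rw [dist_smul, dist_comm (g • x) y] at this
    linarith
  choose g hg using h1
  obtain ⟨m, n, hmn, h⟩ := Set.Finite.exists_lt_map_eq_of_forall_mem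
    (f := fun n : ℕ => (g n)⁻¹ * c ^ (n + 1) * g n) (fun n => hg n) (H.fin (M + 2 * D))
  have : (g n * (g m)⁻¹) * c ^ (m + 1) * (g n * (g m)⁻¹)⁻¹ = c ^ (n + 1) := by
    calc _ = g n * ((g m)⁻¹ * c ^ (m + 1) * g m) * (g n)⁻¹ := by group
      _ = _ := by rw [h]; group
  have := hG.conj_pow hc (by omega) this
  omega

/-- An element with large displacement everywhere is straight at some point. -/
lemma Geom.straight_of_disp {x : X} {δ D : ℝ} (H : Geom G x δ D) {h : G}
    (hh : ∀ y : X, 4 * D + 4 * δ + 2 < dist y (h • y)) :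
    ∃ (y : X) (E : ℝ), Straight h y E ∧ E < dist y (h • y) := by
  have hb : BddBelow (Set.range fun y : X => dist y (h • y)) :=
    ⟨0, by rintro _ ⟨y, rfl⟩; exact dist_nonneg⟩
  have : Nonempty X := ⟨x⟩
  obtain ⟨y, hy⟩ := exists_lt_of_ciInf_lt
    (lt_add_one (⨅ y : X, dist y (h • y)) : (⨅ y : X, dist y (h • y)) < _)
  obtain ⟨m, hm1, hm2⟩ := H.mid y (h • y)
  have hm : (⨅ y : X, dist y (h • y)) ≤ dist m (h • m) := ciInf_le hb m
  have h0 := H.hyp.nonneg x
  have hL := hh y
  have ht := dist_triangle y m (h • y)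
  have e1 : dist (h • y) (h • m) = dist y m := dist_smul _ _ _
  have e2 : dist (h • m) (h • h • y) = dist m (h • y) := dist_smul _ _ _
  have e3 : dist (h • y) (h • h • y) = dist y (h • y) := dist_smul _ _ _
  have hE : ex y (h • y) (h • h • y) ≤ 2 * D + 1 + 2 * δ := by
    by_contra hcon
    push Not at hcon
    set T := min (ex y (h • y) (h • h • y)) (dist y (h • y) - 2 * D) with hT
    have := H.hyp.ex_three (x := m) (w := h • y) (y := h • m) (u := y) (v := h • h • y) (T := T)
      ((min_le_right _ _).trans (by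
        unfold ex; rw [dist_comm (h • y) y, dist_comm m y]; linarith))
      (min_le_left _ _)
      ((min_le_right _ _).trans (by
        unfold ex; rw [dist_comm (h • h • y) (h • y), dist_comm (h • h • y) (h • m)]; linarith))
    have h3 : ex m (h • y) (h • m) ≤ 2 * D + 1 := by unfold ex; linarith
    have h4 : 2 * D + 1 + 2 * δ < T := lt_min hcon (by linarith)
    linarith
  refine ⟨y, 2 * D + 1 + 2 * δ + 2 * δ, H.hyp.straight ?_ (by linarith), by linarith⟩
  rw [← ex_smul h, smul_inv_smul]; exact hE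

/-- Every non-trivial element has a power which is straight at the base point, with margin. -/
lemma Geom.exists_straight {x : X} {δ D : ℝ} (H : Geom G x δ D) (hG : CSA G) {c : G}
    (hc : c ≠ 1) : ∃ (N : ℕ) (E : ℝ), 0 < N ∧ Straight (c ^ N) x E ∧
      E + δ + 1 < dist x (c ^ N • x) := by
  obtain ⟨n, hn, hd⟩ := H.exists_disp hG hc (4 * D + 4 * δ + 2)
  obtain ⟨y, E, hS, hE⟩ := H.straight_of_disp hd
  have hS' : ∀ k : ℕ, Straight ((c ^ n) ^ k) x (E + 6 * dist x y) := by
    intro k i j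
    have h1 := hS (k * i) (k * j)
    have h2 := ex_move ((c ^ n)⁻¹ ^ (k * i) • x) x ((c ^ n) ^ (k * j) • x)
      ((c ^ n)⁻¹ ^ (k * i) • y) y ((c ^ n) ^ (k * j) • y)
    rw [dist_smul, dist_smul] at h2
    rw [← inv_pow, ← pow_mul, ← pow_mul]
    linarith
  obtain ⟨k, hk⟩ := exists_nat_gt
    ((E + 8 * dist x y + δ + 1) / (dist y (c ^ n • y) - E))
  rw [div_lt_iff₀ (by linarith)] at hk
  have hg := hS.growth (k + 1)
  have ht := dist_triangle4 y x ((c ^ n) ^ (k + 1) • x) ((c ^ n) ^ (k + 1) • y)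
  rw [dist_smul, dist_comm y x] at ht
  refine ⟨n * (k + 1), E + 6 * dist x y, by positivity, by rw [pow_mul]; exact hS' _, ?_⟩
  rw [pow_mul]
  push_cast at hg
  nlinarith

/-- Points far from the orbit of `c` are moved far by the long powers of `c`. -/
lemma Geom.far {x : X} {δ D : ℝ} (H : Geom G x δ D) (hG : CSA G) {c : G} (hc : c ≠ 1) :
    ∃ (N : ℕ) (F : ℝ), ∀ y : X, dist y x ≤ dist y (c ^ N • x) → dist y x ≤ dist y ((c ^ N)⁻¹ • x) →
      ∀ k : ℤ, F < dist x (c ^ k • x) →
        2 * dist y x + dist x (c ^ k • x) ≤ dist y (c ^ k • y) + F := by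
  obtain ⟨N, E, hN, hS, hE⟩ := H.exists_straight hG hc
  have h0 := H.hyp.nonneg x
  set L := dist x (c ^ N • x) with hL
  have hL0 : 0 ≤ L := dist_nonneg
  have key : ∀ C : G, Straight C x E → dist x (C • x) = L → ∀ y : X, dist y x ≤ dist y (C • x) →
      ∀ q : ℕ, ex y x (C ^ q • x) ≤ L + δ := by
    intro C hC hCL y hy q
    rcases q with _ | q
    · rw [pow_zero, one_smul, ex_self]; linarith
    · have h1 : ex y x (C • x) ≤ L := by unfold ex; linarith
      have h2 := hC.ex_mid (i := 1) (n := q + 1) (by omega)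
      rw [pow_one] at h2
      have h3 := ex_swap (C ^ (q + 1) • x) x (C • x)
      rw [ex_comm (C ^ (q + 1) • x) (C • x) x] at h3
      rcases H.hyp.ex y x (C • x) (C ^ (q + 1) • x) with h4 | h4 <;> linarith
  set F := L + δ + 2 * (N * dist x (c • x)) with hF
  have hF0 : 0 ≤ F := by positivity
  refine ⟨N, 2 * F + δ, fun y hy1 hy2 => ?_⟩
  have hall : ∀ k : ℤ, ex y x (c ^ k • x) ≤ F := by
    intro k
    have hq : ex y x ((c ^ N) ^ (k / N) • x) ≤ L + δ := by
      rcases Int.eq_nat_or_neg (k / N) with ⟨q, hq | hq⟩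
      · rw [hq, zpow_natCast]; exact key _ hS rfl y hy1 q
      · rw [hq, zpow_neg, zpow_natCast, ← inv_pow]
        exact key _ hS.inv (dist_inv_smul _ _) y hy2 q
    have hr0 : 0 ≤ k % N := Int.emod_nonneg _ (by omega)
    have hr1 : k % N < N := Int.emod_lt_of_pos _ (by omega)
    obtain ⟨r, hr⟩ := Int.eq_ofNat_of_zero_le hr0
    have hk : c ^ k = (c ^ N) ^ (k / N) * c ^ r := by
      rw [← zpow_natCast, ← zpow_mul, ← zpow_natCast, ← zpow_add, ← hr, Int.mul_ediv_add_emod]
    have h1 := ex_move y x (c ^ k • x) y x ((c ^ N) ^ (k / N) • x)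
    have h2 : dist (c ^ k • x) ((c ^ N) ^ (k / N) • x) ≤ N * dist x (c • x) := by
      rw [hk, mul_smul, dist_smul, dist_comm]
      refine (dist_pow_smul_le c x r).trans (mul_le_mul_of_nonneg_right ?_ dist_nonneg)
      exact_mod_cast (by omega : r ≤ N)
    simp only [dist_self] at h1
    linarith
  intro k hk
  have h1 := hall k
  have h2 : ex x (c ^ k • x) (c ^ k • y) ≤ F := by
    have := hall (-k)
    rw [← ex_smul (c ^ k), zpow_neg, smul_inv_smul, ex_comm] at this
    exact this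
  have h3 := ex_swap y x (c ^ k • x)
  have h4 : ex x (c ^ k • x) y = ex y (c ^ k • x) x := ex_comm _ _ _
  have h5 := ex_swap y (c ^ k • x) x
  have h6 : dist (c ^ k • x) (c ^ k • y) = dist y x := by rw [dist_smul, dist_comm]
  rw [dist_comm (c ^ k • x) x] at h5
  rcases H.hyp.ex x (c ^ k • x) (c ^ k • y) y with h7 | h7
  · linarith
  · unfold ex at h7 h1 h2; linarith

end Vale.Agent.P216N
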